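import Vale.Agent.P082.Normal.Unif

/-!
# P082: the normal part, bundled
-/

namespace Vale.Agent.P082.Normal

universe u

variable {H : Type u} [NormedAddCommGroup H] [InnerProductSpace ℂ H] [CompleteSpace H]

attribute [local instance 2000] cstar

/-- A bounded projection of all bounded maps onto maps that are continuous at the tracial
vectors, compatible with left multiplications. -/
theorem exists_normalPart (M : VonNeumannAlgebra H) (S : Set H)
    (hS : ∀ ξ ∈ S, ∀ y ∈ M, ‖star y ξ‖ = ‖y ξ‖)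
    (hsep : ∀ y ∈ M, (∀ ξ ∈ S, y ξ = 0) → y = 0) :
    ∃ P : (M.toStarSubalgebra →L[ℂ] M.toStarSubalgebra) →ₗ[ℂ]
        (M.toStarSubalgebra →L[ℂ] M.toStarSubalgebra),
      (∀ φ, ‖P φ‖ ≤ 24 * ‖φ‖) ∧
      (∀ φ c, P ((ContinuousLinearMap.mul ℂ _ c).comp φ) =
        (ContinuousLinearMap.mul ℂ _ c).comp (P φ)) ∧
      (∀ φ v, P (φ.comp (ContinuousLinearMap.mul ℂ _ v)) =
        (P φ).comp (ContinuousLinearMap.mul ℂ _ v)) ∧
      (∀ c, P (ContinuousLinearMap.mul ℂ _ c) = ContinuousLinearMap.mul ℂ _ c) ∧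
      ∀ φ (η : H) (ε : ℝ), 0 < ε → ∃ (F : Finset H) (δ : ℝ), ↑F ⊆ S ∧ 0 < δ ∧
        ∀ y : M.toStarSubalgebra, ‖y‖ ≤ 1 → (∀ ξ ∈ F, ‖(y : H →L[ℂ] H) ξ‖ ≤ δ) →
          ‖(P φ y : H →L[ℂ] H) η‖ ≤ ε :=
  ⟨normalPart S, norm_normalPart_le, normalPart_mul_left, fun φ v => normalPart_comp_mul hS φ v,
    fun c => normalPart_mul hsep c, fun φ η _ hε => normalPart_small hS φ η hε⟩

end Vale.Agent.P082.Normal
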