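import Vale.Agent.P082.Iface
import Vale.Agent.P082.Normal.Main

/-!
# P082: the interface statement of the normal part
-/

namespace Vale.Agent.P082.Normal

open scoped InnerProductSpace

universe u v

variable {H : Type u} [NormedAddCommGroup H] [InnerProductSpace ℂ H] [CompleteSpace H]

theorem ev_smul {M : VonNeumannAlgebra H} (c : ℂ) (ξ : H) (a : Alg M) :
    ev (c • ξ) a = c • ev ξ a := map_smul (a : H →L[ℂ] H) c ξ

/-- Smallness on the ball at finitely many vectors gives `ContAt`. -/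
theorem exists_contAt {M : VonNeumannAlgebra H} {S : Set H}
    (hS : ∀ ξ ∈ S, ∀ y ∈ M, ‖star y ξ‖ = ‖y ξ‖) (ψ : Alg M →L[ℂ] Alg M) (ξ : H) (hξ : ‖ξ‖ = 1)
    (h : ∀ ε : ℝ, 0 < ε → ∃ (F : Finset H) (δ : ℝ), ↑F ⊆ S ∧ 0 < δ ∧
      ∀ y : Alg M, ‖y‖ ≤ 1 → (∀ η ∈ F, ‖ev η y‖ ≤ δ) → ‖ev ξ (ψ y)‖ ≤ ε) :
    ∃ T : ℝ → ℝ, (∀ ε, 0 ≤ T ε) ∧ ContAt ξ T ψ := by
  classical
  have key : ∀ ε : ℝ, ∃ t : ℝ, 0 ≤ t ∧ (0 < ε → ∃ F : Finset H, (∀ η ∈ F, IsTrVec M η) ∧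
      (F.card : ℝ) ≤ t ∧ ∀ a, ‖ev ξ (ψ a)‖ ≤ ε * ‖a‖ + t * ∑ η ∈ F, ‖ev η a‖) := by
    intro ε
    rcases le_or_gt ε 0 with hε | hε
    · exact ⟨0, le_rfl, fun h => absurd h (not_lt.2 hε)⟩
    obtain ⟨F, δ, hFS, hδ, hF⟩ := h ε hε
    set F₀ := F.filter fun η => η ≠ 0
    set G := F₀.image fun η => ((‖η‖⁻¹ : ℝ) : ℂ) • η
    set t : ℝ := ‖ψ‖ / δ * (∑ η ∈ F, ‖η‖) + G.card
    refine ⟨t, by positivity, fun _ => ⟨G, ?_, le_add_of_nonneg_left (by positivity), fun a => ?_⟩⟩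
    · intro η' hη'
      obtain ⟨η, hη, rfl⟩ := Finset.mem_image.1 hη'
      obtain ⟨hηF, hη0⟩ := Finset.mem_filter.1 hη
      refine ⟨?_, fun a => ?_⟩
      · rw [norm_smul, Complex.norm_real, Real.norm_eq_abs, abs_of_nonneg (by positivity),
          inv_mul_cancel₀ (norm_ne_zero_iff.2 hη0)]
      · rw [ev_smul, ev_smul, norm_smul, norm_smul]
        exact congrArg _ (hS η (hFS hηF) (a : H →L[ℂ] H) a.2)
    · by_cases hcase : ∀ η ∈ F, ‖ev η a‖ ≤ δ * ‖a‖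
      · refine le_trans ?_ (le_add_of_nonneg_right (by positivity))
        rcases eq_or_ne a 0 with rfl | ha
        · simp [ev]
        have hn : 0 < ‖a‖ := norm_pos_iff.2 ha
        set c : ℂ := ((‖a‖⁻¹ : ℝ) : ℂ) with hc
        have hcn : ‖c‖ = ‖a‖⁻¹ := by
          rw [hc, Complex.norm_real, Real.norm_eq_abs, abs_of_pos (inv_pos.2 hn)]
        have hev : ∀ (η : H) (b : Alg M), ‖ev η (c • b)‖ = ‖a‖⁻¹ * ‖ev η b‖ := fun η b => by
          show ‖c • ev η b‖ = _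
          rw [norm_smul, hcn]
        have h1 := hF (c • a) (by rw [norm_smul, hcn, inv_mul_cancel₀ hn.ne']) fun η hη => by
          rw [hev, inv_mul_le_iff₀ hn, mul_comm ‖a‖ δ]
          exact hcase η hη
        rw [map_smul, hev, inv_mul_le_iff₀ hn] at h1
        linarith
      · push Not at hcase
        obtain ⟨η, hη, hlt⟩ := hcase
        have hη0 : η ≠ 0 := fun h0 => by
          have h1 : (0 : ℝ) ≤ δ * ‖a‖ := by positivity
          have h2 : ev η a = 0 := by rw [h0]; exact map_zero (a : H →L[ℂ] H)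
          rw [h2, norm_zero] at hlt
          linarith
        have hmem : ((‖η‖⁻¹ : ℝ) : ℂ) • η ∈ G :=
          Finset.mem_image_of_mem _ (Finset.mem_filter.2 ⟨hη, hη0⟩)
        have hsum := Finset.single_le_sum (f := fun ζ => ‖ev ζ a‖) (fun ζ _ => norm_nonneg _) hmem
        simp only [ev_smul, norm_smul, Complex.norm_real, Real.norm_eq_abs] at hsum
        rw [abs_of_nonneg (by positivity), inv_mul_le_iff₀ (norm_pos_iff.2 hη0)] at hsum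
        have hb : ‖ev ξ (ψ a)‖ ≤ ‖ψ‖ * ‖a‖ :=
          calc ‖((ψ a : Alg M) : H →L[ℂ] H) ξ‖ ≤ ‖ψ a‖ * ‖ξ‖ := ((ψ a : H →L[ℂ] H)).le_opNorm ξ
            _ ≤ ‖ψ‖ * ‖a‖ := by rw [hξ, mul_one]; exact ψ.le_opNorm a
        have hnorm : ‖η‖ ≤ ∑ ζ ∈ F, ‖ζ‖ :=
          Finset.single_le_sum (f := fun ζ : H => ‖ζ‖) (fun ζ _ => norm_nonneg _) hη
        have hS' : (0 : ℝ) ≤ ∑ ζ ∈ G, ‖ev ζ a‖ := Finset.sum_nonneg fun ζ _ => norm_nonneg _
        calc ‖ev ξ (ψ a)‖ ≤ ‖ψ‖ * ‖a‖ := hb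
          _ ≤ ‖ψ‖ / δ * ‖ev η a‖ := by
              rw [div_mul_eq_mul_div, le_div_iff₀ hδ, mul_assoc, mul_comm ‖a‖ δ]
              exact mul_le_mul_of_nonneg_left hlt.le (norm_nonneg ψ)
          _ ≤ ‖ψ‖ / δ * ((∑ ζ ∈ F, ‖ζ‖) * ∑ ζ ∈ G, ‖ev ζ a‖) := by
              refine mul_le_mul_of_nonneg_left (hsum.trans ?_) (by positivity)
              exact mul_le_mul_of_nonneg_right hnorm hS'
          _ ≤ ε * ‖a‖ + t * ∑ ζ ∈ G, ‖ev ζ a‖ := by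
              have h0 : (0 : ℝ) ≤ (G.card : ℝ) * ∑ ζ ∈ G, ‖ev ζ a‖ :=
                mul_nonneg (Nat.cast_nonneg _) hS'
              have h1 : (0 : ℝ) ≤ ε * ‖a‖ := by positivity
              rw [add_mul]
              nlinarith
  choose T hT0 hT using key
  exact ⟨T, hT0, fun ε hε => hT ε hε⟩

/-- The interface statement. -/
theorem stmtNormal : Iface.StmtNormal.{v} := by
  intro H _ _ _ M hM
  obtain ⟨S, hS, hsep⟩ := hM
  obtain ⟨P, hn, hl, hr, hf, hc⟩ := exists_normalPart M S hS hsep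
  refine ⟨P, 24, fun φ a => ?_, fun φ ξ hξ => ?_, fun c φ => hl φ c, fun v φ => hr φ v, hf⟩
  · exact ((P φ).le_opNorm a).trans (mul_le_mul_of_nonneg_right (hn φ) (norm_nonneg a))
  · exact exists_contAt hS (P φ) ξ hξ.norm fun ε hε => hc φ ξ ε hε

end Vale.Agent.P082.Normal
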