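import Vale.Agent.P082.Normal.Setting

/-!
# P082: cutting an element by a smooth spectral cut-off
-/

namespace Vale.Agent.P082.Normal

open scoped InnerProductSpace

variable {A : Type*} [CStarAlgebra A] [PartialOrder A] [StarOrderedRing A]
variable {ι : Type*} {p : ι → A → ℝ}

/-- The resolvent at `-s` of `y* y + y y*`. -/
noncomputable def res (y : A) (s : ℝ) : A :=
  cfc (fun t : ℝ => (t + s)⁻¹) (star y * y + y * star y)

/-- The smooth cut-off. -/
noncomputable def cut (y : A) (s : ℝ) : A := (star y * y + y * star y) * res y s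

variable {y : A} {s : ℝ}

theorem res_facts (hs : 0 < s) :
    IsSelfAdjoint (res y s) ∧ ‖res y s‖ ≤ s⁻¹ ∧ 1 - cut y s = s • res y s ∧
      IsSelfAdjoint (cut y s) ∧ ‖cut y s‖ ≤ 1 ∧
      ‖(1 - cut y s) * ((star y * y + y * star y) * (1 - cut y s))‖ ≤ s ∧
      cut y s * (1 - cut y s) = s • (res y s * (star y * y + y * star y) * res y s) := by
  have h0 : 0 ≤ star y * y + y * star y :=
    add_nonneg (star_mul_self_nonneg y) (mul_star_self_nonneg y)
  set h := star y * y + y * star y with hh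
  have hsa : IsSelfAdjoint h := IsSelfAdjoint.of_nonneg h0
  have hsp : ∀ t ∈ spectrum ℝ h, 0 ≤ t := fun t ht => spectrum_nonneg_of_nonneg h0 ht
  have hc : ContinuousOn (fun t : ℝ => (t + s)⁻¹) (spectrum ℝ h) :=
    ContinuousOn.inv₀ (by fun_prop) fun t ht => by have := hsp t ht; positivity
  have hr : res y s = cfc (fun t : ℝ => (t + s)⁻¹) h := by rw [res, hh]
  have hq : cut y s = cfc (fun t : ℝ => t * (t + s)⁻¹) h := by
    rw [cfc_mul (fun t : ℝ => t) (fun t : ℝ => (t + s)⁻¹) h (by fun_prop) hc, cfc_id' ℝ h, cut,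
      ← hh, hr]
  have hcq : ContinuousOn (fun t : ℝ => t * (t + s)⁻¹) (spectrum ℝ h) :=
    ContinuousOn.mul (by fun_prop) hc
  have hone : 1 - cut y s = s • res y s := by
    rw [hq, hr, ← cfc_smul s _ h hc, ← cfc_const_one ℝ h, ← cfc_sub _ _ h (by fun_prop) hcq]
    refine cfc_congr fun t ht => ?_
    have : t + s ≠ 0 := by have := hsp t ht; positivity
    simp only [smul_eq_mul]
    field_simp
    ring
  have hcone : ContinuousOn (fun t : ℝ => s * (t + s)⁻¹) (spectrum ℝ h) :=
    ContinuousOn.mul (by fun_prop) hc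
  have hone' : 1 - cut y s = cfc (fun t : ℝ => s * (t + s)⁻¹) h := by
    rw [hone, hr, ← cfc_smul s _ h hc]
    rfl
  refine ⟨hr ▸ cfc_predicate _ h, ?_, hone, hq ▸ cfc_predicate _ h, ?_, ?_, ?_⟩
  · rw [hr]
    refine norm_cfc_le (by positivity) fun t ht => ?_
    have := hsp t ht
    rw [Real.norm_eq_abs, abs_of_nonneg (by positivity)]
    exact inv_anti₀ hs (by linarith)
  · rw [hq]
    refine norm_cfc_le zero_le_one fun t ht => ?_
    have := hsp t ht
    rw [Real.norm_eq_abs, abs_of_nonneg (by positivity), ← div_eq_mul_inv,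
      div_le_one (by linarith)]
    linarith
  · have e : (1 - cut y s) * (h * (1 - cut y s)) =
        cfc (fun t : ℝ => (s * (t + s)⁻¹) * (t * (s * (t + s)⁻¹))) h := by
      rw [cfc_mul (fun t : ℝ => s * (t + s)⁻¹) (fun t : ℝ => t * (s * (t + s)⁻¹)) h hcone
        (ContinuousOn.mul (by fun_prop) hcone),
        cfc_mul (fun t : ℝ => t) (fun t : ℝ => s * (t + s)⁻¹) h (by fun_prop) hcone, cfc_id' ℝ h,
        hone']
    rw [e]
    refine norm_cfc_le hs.le fun t ht => ?_
    have := hsp t ht
    have hts : 0 < t + s := by linarith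
    rw [Real.norm_eq_abs, abs_of_nonneg (by positivity)]
    have h1 : s * (t + s)⁻¹ ≤ 1 := by rw [← div_eq_mul_inv, div_le_one hts]; linarith
    have h2 : t * (s * (t + s)⁻¹) ≤ s := by
      rw [mul_left_comm]
      refine mul_le_of_le_one_right hs.le ?_
      rw [← div_eq_mul_inv, div_le_one hts]
      linarith
    calc _ ≤ 1 * s := mul_le_mul h1 h2 (by positivity) zero_le_one
      _ = s := one_mul s
  · have hcomm : Commute h (res y s) := by
      rw [hr]; exact (Commute.refl h).cfc_real _ |>.symm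
    rw [hone, cut, ← hh, mul_smul_comm, hcomm.eq]

theorem norm_mul_one_sub_cut_le (hs : 0 < s) {z : A}
    (hz : star z * z ≤ star y * y + y * star y) : ‖z * (1 - cut y s)‖ ≤ Real.sqrt s := by
  obtain ⟨-, -, -, hqsa, -, hn, -⟩ := res_facts (y := y) hs
  refine Real.le_sqrt_of_sq_le ?_
  rw [sq, ← CStarRing.norm_star_mul_self, star_mul,
    ((IsSelfAdjoint.one A).sub hqsa).star_eq]
  refine (CStarAlgebra.norm_le_norm_of_nonneg_of_le ?_ ?_).trans hn
  · have := star_mul_self_nonneg (z * (1 - cut y s))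
    rwa [star_mul, ((IsSelfAdjoint.one A).sub hqsa).star_eq] at this
  · have := star_left_conjugate_le_conjugate hz (1 - cut y s)
    rw [((IsSelfAdjoint.one A).sub hqsa).star_eq] at this
    simpa only [mul_assoc] using this

/-- Cutting changes `y` little in norm. -/
theorem norm_cut_sub_le (hs : 0 < s) :
    ‖cut y s * y * cut y s - y‖ ≤ 2 * Real.sqrt s := by
  obtain ⟨-, -, -, hqsa, hq1, -, -⟩ := res_facts (y := y) hs
  have h1 : ‖y * (1 - cut y s)‖ ≤ Real.sqrt s :=
    norm_mul_one_sub_cut_le hs (le_add_of_nonneg_right (mul_star_self_nonneg y))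
  have h2 : ‖(1 - cut y s) * y‖ ≤ Real.sqrt s := by
    rw [← norm_star, star_mul, ((IsSelfAdjoint.one A).sub hqsa).star_eq]
    exact norm_mul_one_sub_cut_le hs (by
      rw [star_star]; exact le_add_of_nonneg_left (star_mul_self_nonneg y))
  calc ‖cut y s * y * cut y s - y‖
      = ‖-((1 - cut y s) * y) * cut y s - y * (1 - cut y s)‖ := by congr 1; noncomm_ring
    _ ≤ Real.sqrt s * 1 + Real.sqrt s := by
        refine (norm_sub_le _ _).trans (add_le_add ?_ h1)
        refine (norm_mul_le _ _).trans ?_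
        rw [norm_neg]
        exact mul_le_mul h2 hq1 (norm_nonneg _) (Real.sqrt_nonneg s)
    _ = 2 * Real.sqrt s := by ring

/-- The cut-off is as small as `y` in the seminorms. -/
theorem semi_cut_le (hp : IsFamily p) (hs : 0 < s) (hy : ‖y‖ ≤ 1) (i : ι) :
    p i (cut y s) ≤ 2 / s * p i y := by
  obtain ⟨-, hr, -, -, -, -, -⟩ := res_facts (y := y) hs
  have h1 : p i (star y * y) ≤ p i y := by
    refine ((hp.mul_le i _ y).trans ?_)
    rw [hp.star_eq]
    exact mul_le_of_le_one_left (hp.nonneg i y) hy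
  have h2 : p i (y * star y) ≤ p i y := by
    refine ((hp.mul_le i _ _).trans ?_)
    rw [norm_star]
    exact mul_le_of_le_one_left (hp.nonneg i y) hy
  calc p i (cut y s) ≤ ‖res y s‖ * p i (star y * y + y * star y) := hp.mul_le i _ _
    _ ≤ s⁻¹ * (p i y + p i y) :=
        mul_le_mul hr ((hp.add_le i _ _).trans (add_le_add h1 h2)) (hp.nonneg i _) (by positivity)
    _ = 2 / s * p i y := by ring

end Vale.Agent.P082.Normal
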