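import Mathlib

/-!
# P082: functionals on a C*-algebra as combinations of four positive ones
-/

namespace Vale.Agent.P082.Normal

open scoped ComplexOrder ComplexStarModule

variable {A : Type*} [CStarAlgebra A] [PartialOrder A] [StarOrderedRing A]

/-- Complexification of a positive real functional on the self-adjoint part. -/
noncomputable def complexify (f : selfAdjoint A →ₗ[ℝ] ℝ)
    (hf : ∀ x : selfAdjoint A, 0 ≤ (x : A) → 0 ≤ f x) : A →ₚ[ℂ] ℂ :=
  PositiveLinearMap.mk₀
    { toFun := fun a => (f (ℜ a) : ℂ) + Complex.I * (f (ℑ a) : ℂ)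
      map_add' := fun a b => by simp only [map_add]; push_cast; ring
      map_smul' := fun c a => by
        simp only [realPart_smul, imaginaryPart_smul, map_add, map_sub, map_smul, smul_eq_mul,
          RingHom.id_apply]
        apply Complex.ext <;> simp }
    fun a ha => by
      have hsa : IsSelfAdjoint a := IsSelfAdjoint.of_nonneg ha
      have h1 : ((ℜ a : selfAdjoint A) : A) = a := hsa.coe_realPart
      have h2 : ℑ a = 0 := hsa.imaginaryPart
      simp only [LinearMap.coe_mk, AddHom.coe_mk, h2, map_zero, Complex.ofReal_zero, mul_zero,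
        add_zero]
      exact_mod_cast hf _ (h1.symm ▸ ha)

theorem complexify_apply (f : selfAdjoint A →ₗ[ℝ] ℝ)
    (hf : ∀ x : selfAdjoint A, 0 ≤ (x : A) → 0 ≤ f x) (a : A) :
    complexify f hf a = (f (ℜ a) : ℂ) + Complex.I * (f (ℑ a) : ℂ) := rfl

variable (A) in
/-- Pairs of positive self-adjoint elements. -/
def pairCone : PointedCone ℝ (selfAdjoint A × selfAdjoint A) where
  carrier := {z | 0 ≤ (z.1 : A) ∧ 0 ≤ (z.2 : A)}
  zero_mem' := by simp
  add_mem' := fun {a b} ha hb => ⟨by simpa using add_nonneg ha.1 hb.1,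
    by simpa using add_nonneg ha.2 hb.2⟩
  smul_mem' := fun r a ha => ⟨(show 0 ≤ (r : ℝ) • (a.1 : A) from smul_nonneg r.2 ha.1),
    (show 0 ≤ (r : ℝ) • (a.2 : A) from smul_nonneg r.2 ha.2)⟩

/-- A real functional bounded by `c` is a difference of positive ones of controlled mass. -/
theorem exists_split (w : selfAdjoint A →ₗ[ℝ] ℝ) {c : ℝ} (hc : 0 ≤ c)
    (hw : ∀ x : selfAdjoint A, |w x| ≤ c * ‖(x : A)‖) :
    ∃ f g : selfAdjoint A →ₗ[ℝ] ℝ, (∀ x : selfAdjoint A, 0 ≤ (x : A) → 0 ≤ f x) ∧
      (∀ x : selfAdjoint A, 0 ≤ (x : A) → 0 ≤ g x) ∧ (∀ x, w x = f x - g x) ∧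
      f 1 + g 1 ≤ 6 * c := by
  rcases subsingleton_or_nontrivial A with hA | hA
  · refine ⟨0, 0, fun _ _ => le_rfl, fun _ _ => le_rfl, fun x => ?_, by simp; linarith⟩
    rw [Subsingleton.elim x 0]; simp
  let L : selfAdjoint A × ℝ →ₗ[ℝ] selfAdjoint A × selfAdjoint A :=
    { toFun := fun z => (z.1 + z.2 • 1, -z.1 + z.2 • 1)
      map_add' := fun a b => by
        apply Prod.ext <;> simp only [Prod.fst_add, Prod.snd_add, add_smul, neg_add] <;> abel
      map_smul' := fun r a => by
        apply Prod.ext <;>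
          simp only [Prod.smul_fst, Prod.smul_snd, smul_eq_mul, mul_smul, RingHom.id_apply,
            smul_add, smul_neg] }
  have hL : ∀ x t, L (x, t) = (x + t • 1, -x + t • 1) := fun _ _ => rfl
  have hinj : Function.Injective L := by
    rw [← LinearMap.ker_eq_bot]
    refine LinearMap.ker_eq_bot'.2 fun z hz => ?_
    obtain ⟨x, t⟩ := z
    rw [hL, Prod.mk_eq_zero] at hz
    have h1 : ((2 * t : ℝ)) • (1 : selfAdjoint A) = 0 := by
      have := congrArg₂ (· + ·) hz.1 hz.2
      simp only [add_zero] at this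
      rw [← this, two_mul, add_smul]; abel
    have h2 : t = 0 := by
      rcases smul_eq_zero.1 h1 with h | h
      · linarith
      · exact absurd (congrArg Subtype.val h) one_ne_zero
    subst h2
    simpa using hz.1
  let F : selfAdjoint A × ℝ →ₗ[ℝ] ℝ :=
    w.comp (LinearMap.fst ℝ _ _) + (3 * c) • LinearMap.snd ℝ _ _
  have hF : ∀ x t, F (x, t) = w x + 3 * c * t := fun _ _ => rfl
  let e := LinearEquiv.ofInjective L hinj
  let P : (selfAdjoint A × selfAdjoint A) →ₗ.[ℝ] ℝ :=
    ⟨LinearMap.range L, F.comp e.symm.toLinearMap⟩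
  have hpos : ∀ z : P.domain, (z : selfAdjoint A × selfAdjoint A) ∈ pairCone A → 0 ≤ P z := by
    intro z hz
    obtain ⟨⟨x, t⟩, rfl⟩ := e.surjective z
    show 0 ≤ F (e.symm (e (x, t)))
    rw [LinearEquiv.symm_apply_apply, hF]
    have hz' : L (x, t) ∈ pairCone A := hz
    rw [hL] at hz'
    obtain ⟨h1, h2⟩ := hz'
    simp only [AddSubgroup.coe_add, NegMemClass.coe_neg, selfAdjoint.val_smul,
      selfAdjoint.val_one] at h1 h2
    have h3 : (x : A) + t • 1 ≤ (2 * t) • 1 := by
      have h4 := le_add_of_nonneg_right (a := (x : A) + t • 1) h2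
      refine h4.trans (le_of_eq ?_)
      rw [two_mul, add_smul]; abel
    have ht : 0 ≤ t := by
      by_contra ht
      have h4 : (0 : A) ≤ (2 * t) • 1 := h1.trans h3
      have h5 : (2 * t) • (1 : A) ≤ 0 :=
        smul_nonpos_of_nonpos_of_nonneg (by linarith [not_le.1 ht]) zero_le_one
      rcases smul_eq_zero.1 (le_antisymm h5 h4) with h | h
      · linarith [not_le.1 ht]
      · exact one_ne_zero h
    have h6 : ‖(x : A) + t • 1‖ ≤ 2 * t := by
      refine (CStarAlgebra.norm_le_norm_of_nonneg_of_le h1 h3).trans ?_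
      rw [norm_smul, CStarRing.norm_one, mul_one, Real.norm_eq_abs, abs_of_nonneg (by linarith)]
    have h7 : ‖(x : A)‖ ≤ 3 * t := by
      have := norm_sub_le ((x : A) + t • 1) (t • 1)
      rw [add_sub_cancel_right, norm_smul, CStarRing.norm_one, mul_one, Real.norm_eq_abs,
        abs_of_nonneg ht] at this
      linarith
    have := (abs_le.1 ((hw x).trans (mul_le_mul_of_nonneg_left h7 hc))).1
    linarith
  have hdense : ∀ y, ∃ z : P.domain, (z : selfAdjoint A × selfAdjoint A) + y ∈ pairCone A := by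
    intro y
    refine ⟨⟨L (0, ‖(y.1 : A)‖ + ‖(y.2 : A)‖), LinearMap.mem_range_self L _⟩, ?_, ?_⟩
    · show (0 : A) ≤ _
      have h := IsSelfAdjoint.neg_algebraMap_norm_le_self y.1.2
      rw [Algebra.algebraMap_eq_smul_one] at h
      simp only [hL, Prod.fst_add, zero_add, AddSubgroup.coe_add, selfAdjoint.val_smul,
        selfAdjoint.val_one, add_smul]
      calc (0 : A) ≤ ‖(y.1 : A)‖ • 1 + (y.1 : A) := neg_le_iff_add_nonneg'.1 h
        _ ≤ _ := by
          gcongr
          exact le_add_of_nonneg_right (smul_nonneg (norm_nonneg _) zero_le_one)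
    · show (0 : A) ≤ _
      have h := IsSelfAdjoint.neg_algebraMap_norm_le_self y.2.2
      rw [Algebra.algebraMap_eq_smul_one] at h
      simp only [hL, Prod.snd_add, neg_zero, zero_add, AddSubgroup.coe_add, selfAdjoint.val_smul,
        selfAdjoint.val_one, add_smul]
      calc (0 : A) ≤ ‖(y.2 : A)‖ • 1 + (y.2 : A) := neg_le_iff_add_nonneg'.1 h
        _ ≤ _ := by
          gcongr
          exact le_add_of_nonneg_left (smul_nonneg (norm_nonneg _) zero_le_one)
  obtain ⟨G, hG1, hG2⟩ := riesz_extension (pairCone A) P hpos hdense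
  have hGL : ∀ x t, G (L (x, t)) = w x + 3 * c * t := fun x t => by
    have h := hG1 ⟨L (x, t), LinearMap.mem_range_self L _⟩
    rw [h]
    show F (e.symm ⟨L (x, t), _⟩) = _
    rw [show (⟨L (x, t), LinearMap.mem_range_self L (x, t)⟩ : LinearMap.range L) = e (x, t) from
      rfl, LinearEquiv.symm_apply_apply, hF]
  refine ⟨G.comp (LinearMap.inl ℝ _ _), G.comp (LinearMap.inr ℝ _ _),
    fun x hx => hG2 _ ⟨hx, le_rfl⟩, fun x hx => hG2 _ ⟨le_rfl, hx⟩, fun x => ?_, ?_⟩
  · have h := hGL x 0
    rw [hL, zero_smul, add_zero, add_zero, mul_zero, add_zero] at h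
    simp only [LinearMap.comp_apply, LinearMap.inl_apply, LinearMap.inr_apply]
    rw [← h, ← map_sub]
    simp
  · have h := hGL 0 1
    rw [hL, one_smul, zero_add, neg_zero, zero_add, map_zero, zero_add, mul_one] at h
    simp only [LinearMap.comp_apply, LinearMap.inl_apply, LinearMap.inr_apply]
    rw [← map_add]
    simp only [Prod.mk_add_mk, add_zero, zero_add, h]
    linarith

/-- Every bounded functional is a combination of four positive functionals of controlled mass. -/
theorem exists_decomp (w : A →L[ℂ] ℂ) :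
    ∃ f : Fin 4 → A →ₚ[ℂ] ℂ, (∀ a, w a = ∑ j : Fin 4, Complex.I ^ (j : ℕ) * f j a) ∧
      ∀ j, ‖f j 1‖ ≤ 6 * ‖w‖ := by
  let wr : selfAdjoint A →ₗ[ℝ] ℝ :=
    { toFun := fun x => (w x).re
      map_add' := fun a b => by simp
      map_smul' := fun r a => by simp }
  let wi : selfAdjoint A →ₗ[ℝ] ℝ :=
    { toFun := fun x => (w x).im
      map_add' := fun a b => by simp
      map_smul' := fun r a => by simp }
  obtain ⟨f, g, hf, hg, hfg, hm⟩ := exists_split wr (norm_nonneg w) fun x =>
    (Complex.abs_re_le_norm _).trans (w.le_opNorm _)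
  obtain ⟨f', g', hf', hg', hfg', hm'⟩ := exists_split wi (norm_nonneg w) fun x =>
    (Complex.abs_im_le_norm _).trans (w.le_opNorm _)
  refine ⟨![complexify f hf, complexify f' hf', complexify g hg, complexify g' hg'],
    fun a => ?_, fun j => ?_⟩
  · have hsa : ∀ x : selfAdjoint A,
        w x = ((f x : ℂ) - g x) + Complex.I * ((f' x : ℂ) - g' x) := fun x => by
      have e1 : f x - g x = (w x).re := (hfg x).symm
      have e2 : f' x - g' x = (w x).im := (hfg' x).symm
      rw [← Complex.ofReal_sub, ← Complex.ofReal_sub, e1, e2, mul_comm, Complex.re_add_im]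
    conv_lhs => rw [← realPart_add_I_smul_imaginaryPart a]
    rw [map_add, map_smul, hsa, hsa, Fin.sum_univ_four]
    simp [complexify_apply, pow_succ]
    ring
  · have h1 : ∀ (u : selfAdjoint A →ₗ[ℝ] ℝ) (hu : ∀ x : selfAdjoint A, 0 ≤ (x : A) → 0 ≤ u x),
        ‖complexify u hu 1‖ = u 1 := fun u hu => by
      have e1 : ℜ (1 : A) = 1 := Subtype.ext (IsSelfAdjoint.one A).coe_realPart
      have e2 : ℑ (1 : A) = 0 := (IsSelfAdjoint.one A).imaginaryPart
      rw [complexify_apply, e1, e2, map_zero, Complex.ofReal_zero, mul_zero, add_zero,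
        Complex.norm_real, Real.norm_eq_abs, abs_of_nonneg (hu 1 zero_le_one)]
    have h0 : ∀ (u : selfAdjoint A →ₗ[ℝ] ℝ), (∀ x : selfAdjoint A, 0 ≤ (x : A) → 0 ≤ u x) →
        0 ≤ u 1 := fun u hu => hu 1 zero_le_one
    fin_cases j <;> simp only [Fin.zero_eta, Fin.mk_one, Fin.reduceFinMk, Matrix.cons_val, h1] <;>
      linarith [h0 f hf, h0 g hg, h0 f' hf', h0 g' hg']

end Vale.Agent.P082.Normal
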