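import Vale.Agent.P082.Normal.Rep
import Vale.Agent.P082.Normal.Jordan

/-!
# P082: the controlled part of a bounded functional
-/

namespace Vale.Agent.P082.Normal

open scoped InnerProductSpace ComplexOrder
open UniformSpace

variable {A : Type*} [CStarAlgebra A] {ι : Type*} {p : ι → A → ℝ}
variable {K : Type*} [NormedAddCommGroup K] [InnerProductSpace ℂ K] [CompleteSpace K]

/-- The functional `x ↦ ⟪u, π x v⟫`. -/
noncomputable def vecFun (π : A →⋆ₐ[ℂ] (K →L[ℂ] K)) (u v : K) : A →L[ℂ] ℂ :=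
  LinearMap.mkContinuous
    { toFun := fun x => ⟪u, π x v⟫_ℂ
      map_add' := fun x y => by simp [map_add]
      map_smul' := fun c x => by simp [map_smul] }
    (‖u‖ * ‖v‖) fun x => by
      show ‖⟪u, π x v⟫_ℂ‖ ≤ _
      refine (norm_inner_le_norm _ _).trans ?_
      calc ‖u‖ * ‖π x v‖ ≤ ‖u‖ * (‖x‖ * ‖v‖) :=
            mul_le_mul_of_nonneg_left (norm_rep_apply_le π x v) (norm_nonneg u)
        _ = ‖u‖ * ‖v‖ * ‖x‖ := by ring

@[simp]
theorem vecFun_apply (π : A →⋆ₐ[ℂ] (K →L[ℂ] K)) (u v : K) (x : A) :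
    vecFun π u v x = ⟪u, π x v⟫_ℂ := rfl

variable [PartialOrder A] [StarOrderedRing A]

/-- The cyclic vector of the GNS space. -/
noncomputable def cyc (f : A →ₚ[ℂ] ℂ) : f.GNS := ((f.toPreGNS 1 : f.PreGNS) : f.GNS)

theorem rep_cyc (f : A →ₚ[ℂ] ℂ) (a : A) :
    f.gnsStarAlgHom a (cyc f) = ((f.toPreGNS a : f.PreGNS) : f.GNS) := by
  simp [cyc, PositiveLinearMap.gnsStarAlgHom]

theorem inner_cyc (f : A →ₚ[ℂ] ℂ) (a : A) : ⟪cyc f, f.gnsStarAlgHom a (cyc f)⟫_ℂ = f a := by
  rw [rep_cyc, cyc, Completion.inner_coe, PositiveLinearMap.preGNS_inner_def]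
  simp

theorem norm_cyc_sq (f : A →ₚ[ℂ] ℂ) : ‖cyc f‖ ^ 2 = ‖f 1‖ := by
  have h := inner_cyc f 1
  rw [map_one, one_apply_eq_self, inner_self_eq_norm_sq_to_K] at h
  rw [← h]
  simp

variable {f : A →ₚ[ℂ] ℂ} {π : A →⋆ₐ[ℂ] (K →L[ℂ] K)} {u : K}

/-- A vector dominated by `f` receives an intertwiner from the GNS space of `f`. -/
noncomputable def lift (f : A →ₚ[ℂ] ℂ) (π : A →⋆ₐ[ℂ] (K →L[ℂ] K)) (u : K)
    (h : ∀ a, ‖π a u‖ ≤ ‖f.toPreGNS a‖) : f.GNS →L[ℂ] K :=
  ContinuousLinearMap.fromCompletion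
    (LinearMap.mkContinuous
      { toFun := fun a : f.PreGNS => π (f.ofPreGNS a) u
        map_add' := fun a b => by simp [map_add]
        map_smul' := fun c a => by simp [map_smul] }
      1 fun a => by
        show ‖π (f.ofPreGNS a) u‖ ≤ 1 * ‖a‖
        rw [one_mul]
        simpa using h (f.ofPreGNS a))

theorem lift_coe (h : ∀ a, ‖π a u‖ ≤ ‖f.toPreGNS a‖) (a : A) :
    lift f π u h ((f.toPreGNS a : f.PreGNS) : f.GNS) = π a u := by
  rw [lift, ContinuousLinearMap.fromCompletion_apply_coe]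
  rfl

theorem lift_cyc (h : ∀ a, ‖π a u‖ ≤ ‖f.toPreGNS a‖) : lift f π u h (cyc f) = u := by
  rw [cyc, lift_coe, map_one, one_apply_eq_self]

theorem lift_intertwine (h : ∀ a, ‖π a u‖ ≤ ‖f.toPreGNS a‖) (a : A) (η : f.GNS) :
    lift f π u h (f.gnsStarAlgHom a η) = π a (lift f π u h η) := by
  induction η using Completion.induction_on with
  | hp => apply isClosed_eq <;> fun_prop
  | ih b =>
    obtain ⟨b, rfl⟩ := f.toPreGNS.surjective b
    rw [← rep_cyc, ← mul_apply_eq_comp, ← map_mul, rep_cyc, rep_cyc, lift_coe, lift_coe, map_mul,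
      mul_apply_eq_comp]

variable (p) in
/-- The controlled part of a positive functional. -/
noncomputable def nPart (f : A →ₚ[ℂ] ℂ) : A →L[ℂ] ℂ :=
  vecFun f.gnsStarAlgHom (cyc f) (proj p f.gnsStarAlgHom (cyc f))

/-- Transfer of the controlled part along a lift. -/
theorem nPart_eq_lift (h : ∀ a, ‖π a u‖ ≤ ‖f.toPreGNS a‖) (w : K) (x : A) :
    ⟪w, π x (proj p π u)⟫_ℂ =
      ⟪(lift f π u h).adjoint w, f.gnsStarAlgHom x (proj p f.gnsStarAlgHom (cyc f))⟫_ℂ := by
  rw [ContinuousLinearMap.adjoint_inner_left, lift_intertwine h,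
    intertwine_proj (p := p) f.gnsStarAlgHom (π' := π) (lift_intertwine h), lift_cyc]

/-- The controlled part of a vector state is computed in any representation. -/
theorem nPart_eq_vecFun (hfu : ∀ a, f a = ⟪u, π a u⟫_ℂ) :
    nPart p f = vecFun π u (proj p π u) := by
  have h : ∀ a, ‖π a u‖ ≤ ‖f.toPreGNS a‖ := fun a => by
    refine (pow_le_pow_iff_left₀ (norm_nonneg _) (norm_nonneg _) two_ne_zero).1 (le_of_eq ?_)
    have e1 := PositiveLinearMap.preGNS_norm_sq f (f.toPreGNS a)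
    rw [PositiveLinearMap.ofPreGNS_toPreGNS, hfu, map_mul, map_star, mul_apply_eq_comp,
      ContinuousLinearMap.star_eq_adjoint, ContinuousLinearMap.adjoint_inner_right,
      inner_self_eq_norm_sq_to_K] at e1
    apply Complex.ofReal_injective
    push_cast
    simpa using e1.symm
  have hu : (lift f π u h).adjoint u = cyc f := by
    refine ext_inner_right ℂ fun η => ?_
    rw [ContinuousLinearMap.adjoint_inner_left]
    induction η using Completion.induction_on with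
    | hp => apply isClosed_eq <;> fun_prop
    | ih b =>
      obtain ⟨b, rfl⟩ := f.toPreGNS.surjective b
      rw [lift_coe, ← hfu, ← rep_cyc, inner_cyc]
  ext x
  rw [nPart, vecFun_apply, vecFun_apply, nPart_eq_lift h, hu]

/-- A positive functional minorising `g` on squares. -/
theorem norm_le_of_sum {n : Type*} (s : Finset n) (F : n → A →ₚ[ℂ] ℂ) (g : A →ₚ[ℂ] ℂ)
    (hg : ∀ a, g a = ∑ j ∈ s, F j a) {j : n} (hj : j ∈ s) (a : A) :
    ‖(F j).gnsStarAlgHom a (cyc (F j))‖ ≤ ‖g.toPreGNS a‖ := by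
  rw [rep_cyc, Completion.norm_coe, PositiveLinearMap.preGNS_norm_def,
    PositiveLinearMap.preGNS_norm_def]
  simp only [PositiveLinearMap.ofPreGNS_toPreGNS]
  refine Real.sqrt_le_sqrt ?_
  rw [hg, Complex.re_sum]
  exact Finset.single_le_sum (f := fun i => (F i (star a * a)).re)
    (fun i _ => (RCLike.nonneg_iff.1 ((F i).map_nonneg (star_mul_self_nonneg a))).1) hj

/-- Linear relations between positive functionals pass to the controlled parts. -/
theorem sum_nPart_eq_zero {n : Type*} (s : Finset n) (c : n → ℂ) (F : n → A →ₚ[ℂ] ℂ)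
    (h0 : ∀ a, ∑ j ∈ s, c j * F j a = 0) (x : A) : ∑ j ∈ s, c j * nPart p (F j) x = 0 := by
  let g : A →ₚ[ℂ] ℂ := PositiveLinearMap.mk₀ (∑ j ∈ s, (F j).toLinearMap) fun a ha => by
    rw [LinearMap.sum_apply]
    exact Finset.sum_nonneg fun j _ => (F j).map_nonneg ha
  have hg : ∀ a, g a = ∑ j ∈ s, F j a := fun a => by
    show (∑ j ∈ s, (F j).toLinearMap) a = _
    rw [LinearMap.sum_apply]
    rfl
  have hj : ∀ j, ∀ _ : j ∈ s, ∀ a, ‖(F j).gnsStarAlgHom a (cyc (F j))‖ ≤ ‖g.toPreGNS a‖ :=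
    fun j hj a => norm_le_of_sum s F g hg hj a
  classical
  let v : n → g.GNS := fun j =>
    if h : j ∈ s then (lift g (F j).gnsStarAlgHom (cyc (F j)) (hj j h)).adjoint (cyc (F j)) else 0
  have hv : ∀ j ∈ s, ∀ y, F j y = ⟪v j, g.gnsStarAlgHom y (cyc g)⟫_ℂ := fun j h y => by
    simp only [v, dif_pos h]
    rw [ContinuousLinearMap.adjoint_inner_left, lift_intertwine, lift_cyc, inner_cyc]
  have hn : ∀ j ∈ s, nPart p (F j) x =
      ⟪v j, g.gnsStarAlgHom x (proj p g.gnsStarAlgHom (cyc g))⟫_ℂ := fun j h => by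
    simp only [v, dif_pos h]
    rw [nPart, vecFun_apply, nPart_eq_lift (hj j h)]
  let b : g.GNS := ∑ j ∈ s, star (c j) • v j
  have hb : ∀ η, ⟪b, η⟫_ℂ = ∑ j ∈ s, c j * ⟪v j, η⟫_ℂ := fun η => by
    simp [b, sum_inner, inner_smul_left]
  have hb0 : b = 0 := by
    refine ext_inner_right ℂ fun η => ?_
    rw [inner_zero_left]
    induction η using Completion.induction_on with
    | hp => apply isClosed_eq <;> fun_prop
    | ih a =>
      obtain ⟨a, rfl⟩ := g.toPreGNS.surjective a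
      rw [← rep_cyc, hb, ← h0 a]
      exact Finset.sum_congr rfl fun j h => by rw [← hv j h]
  rw [Finset.sum_congr rfl fun j h => by rw [hn j h], ← hb, hb0, inner_zero_left]

end Vale.Agent.P082.Normal
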