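import Vale.Agent.P082.Normal.Nrm

/-!
# P082: the controlled part as a linear map on the dual of a C*-algebra
-/

namespace Vale.Agent.P082.Normal

open scoped InnerProductSpace ComplexOrder

variable {A : Type*} [CStarAlgebra A] [PartialOrder A] [StarOrderedRing A]
variable {ι : Type*} {p : ι → A → ℝ}

variable (p) in
/-- The controlled part of a bounded functional. -/
noncomputable def nrmFun (w : A →L[ℂ] ℂ) : A →L[ℂ] ℂ :=
  ∑ j : Fin 4, Complex.I ^ (j : ℕ) • nPart p ((exists_decomp w).choose j)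

theorem sum_nPart_congr {n m : Type*} (s : Finset n) (t : Finset m) (c : n → ℂ) (d : m → ℂ)
    (F : n → A →ₚ[ℂ] ℂ) (G : m → A →ₚ[ℂ] ℂ)
    (h : ∀ a, ∑ j ∈ s, c j * F j a = ∑ j ∈ t, d j * G j a) (x : A) :
    ∑ j ∈ s, c j * nPart p (F j) x = ∑ j ∈ t, d j * nPart p (G j) x := by
  have h1 := sum_nPart_eq_zero (p := p) (s.disjSum t) (Sum.elim c fun j => -d j) (Sum.elim F G)
    (fun a => by simp [Finset.sum_disjSum, h a, Finset.sum_neg_distrib]) x
  simp only [Finset.sum_disjSum, Sum.elim_inl, Sum.elim_inr, neg_mul,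
    Finset.sum_neg_distrib] at h1
  exact add_neg_eq_zero.1 h1

/-- Any decomposition computes the controlled part. -/
theorem nrmFun_eq_sum {n : Type*} (s : Finset n) (c : n → ℂ) (F : n → A →ₚ[ℂ] ℂ) (w : A →L[ℂ] ℂ)
    (h : ∀ a, w a = ∑ j ∈ s, c j * F j a) (x : A) :
    nrmFun p w x = ∑ j ∈ s, c j * nPart p (F j) x := by
  simp only [nrmFun, sum_apply, smul_apply, smul_eq_mul]
  exact sum_nPart_congr _ _ _ _ _ _ (fun a => ((exists_decomp w).choose_spec.1 a).symm.trans (h a)) x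

theorem norm_nPart_le (f : A →ₚ[ℂ] ℂ) (x : A) : ‖nPart p f x‖ ≤ ‖f 1‖ * ‖x‖ := by
  rw [nPart, vecFun_apply, ← norm_cyc_sq]
  calc ‖⟪cyc f, f.gnsStarAlgHom x (proj p f.gnsStarAlgHom (cyc f))⟫_ℂ‖
      ≤ ‖cyc f‖ * (‖x‖ * ‖proj p f.gnsStarAlgHom (cyc f)‖) :=
        (norm_inner_le_norm _ _).trans
          (mul_le_mul_of_nonneg_left (norm_rep_apply_le _ _ _) (norm_nonneg _))
    _ ≤ ‖cyc f‖ * (‖x‖ * ‖cyc f‖) := by gcongr; exact norm_proj_apply_le _ _
    _ = ‖cyc f‖ ^ 2 * ‖x‖ := by ring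

theorem norm_nrmFun_le (w : A →L[ℂ] ℂ) (x : A) : ‖nrmFun p w x‖ ≤ 24 * ‖w‖ * ‖x‖ := by
  simp only [nrmFun, sum_apply, smul_apply, smul_eq_mul]
  refine (norm_sum_le _ _).trans ((Finset.sum_le_sum fun j _ => ?_).trans_eq
    (by rw [Finset.sum_const, Finset.card_univ, Fintype.card_fin, nsmul_eq_mul]; push_cast; ring :
      ∑ _j : Fin 4, 6 * ‖w‖ * ‖x‖ = 24 * ‖w‖ * ‖x‖))
  rw [norm_mul, norm_pow, Complex.norm_I, one_pow, one_mul]
  exact (norm_nPart_le _ x).trans
    (mul_le_mul_of_nonneg_right ((exists_decomp w).choose_spec.2 j) (norm_nonneg x))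

variable (p) in
/-- The controlled part as a linear map. -/
noncomputable def nrm : (A →L[ℂ] ℂ) →ₗ[ℂ] (A →L[ℂ] ℂ) where
  toFun := nrmFun p
  map_add' := fun v w => by
    ext x
    rw [add_apply, nrmFun_eq_sum (Finset.univ.disjSum Finset.univ)
      (Sum.elim (fun j : Fin 4 => Complex.I ^ (j : ℕ)) fun j : Fin 4 => Complex.I ^ (j : ℕ))
      (Sum.elim (exists_decomp v).choose (exists_decomp w).choose) (v + w) (fun a => ?_) x]
    · simp [nrmFun]
    · simp [← (exists_decomp v).choose_spec.1 a,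
        ← (exists_decomp w).choose_spec.1 a]
  map_smul' := fun c w => by
    ext x
    rw [RingHom.id_apply, smul_apply, nrmFun_eq_sum Finset.univ
      (fun j : Fin 4 => c * Complex.I ^ (j : ℕ)) (exists_decomp w).choose (c • w) (fun a => ?_) x]
    · simp [nrmFun, Finset.mul_sum, mul_assoc]
    · simp [mul_assoc, ← Finset.mul_sum, ← (exists_decomp w).choose_spec.1 a]

theorem nrm_apply (w : A →L[ℂ] ℂ) : nrm p w = nrmFun p w := rfl

theorem norm_nrm_apply_le (w : A →L[ℂ] ℂ) (x : A) : ‖nrm p w x‖ ≤ 24 * ‖w‖ * ‖x‖ :=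
  norm_nrmFun_le w x

variable {K : Type*} [NormedAddCommGroup K] [InnerProductSpace ℂ K] [CompleteSpace K]

/-- A vector state as a positive functional. -/
noncomputable def vecPos (π : A →⋆ₐ[ℂ] (K →L[ℂ] K)) (w : K) : A →ₚ[ℂ] ℂ :=
  PositiveLinearMap.mk₀ (vecFun π w w).toLinearMap fun a ha => by
    show (0 : ℂ) ≤ ⟪w, π a w⟫_ℂ
    have h : 0 ≤ π a := map_nonneg π ha
    exact ((ContinuousLinearMap.nonneg_iff_isPositive _).1 h).inner_nonneg_right w

theorem vecPos_apply (π : A →⋆ₐ[ℂ] (K →L[ℂ] K)) (w : K) (a : A) :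
    vecPos π w a = ⟪w, π a w⟫_ℂ := rfl

/-- The controlled part of a vector functional. -/
theorem nrm_vecFun (π : A →⋆ₐ[ℂ] (K →L[ℂ] K)) (u v : K) :
    nrm p (vecFun π u v) = vecFun π u (proj p π v) := by
  have hpol : ∀ (T : K →L[ℂ] K) (a b : K), ∑ j : Fin 4, (4 : ℂ)⁻¹ * (-Complex.I) ^ (j : ℕ) *
      ⟪a + Complex.I ^ (j : ℕ) • b, T (a + Complex.I ^ (j : ℕ) • b)⟫_ℂ = ⟪a, T b⟫_ℂ := by
    intro T a b
    simp only [map_add, map_smul, inner_add_left, inner_add_right, inner_smul_left,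
      inner_smul_right, map_pow, Complex.conj_I, Fin.sum_univ_four]
    simp
    ring_nf
    simp [Complex.I_sq]
    ring
  ext x
  rw [nrm_apply, nrmFun_eq_sum Finset.univ (fun j : Fin 4 => (4 : ℂ)⁻¹ * (-Complex.I) ^ (j : ℕ))
    (fun j : Fin 4 => vecPos π (u + Complex.I ^ (j : ℕ) • v)) _
    (fun a => (hpol (π a) u v).symm) x]
  simp only [nPart_eq_vecFun (vecPos_apply π _), vecFun_apply]
  exact hpol ((π x).comp (proj p π)) u v

/-- Left and right multiplications commute with the controlled part. -/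
theorem nrm_mul (hp : IsFamily p) (w : A →L[ℂ] ℂ) (a b x : A) :
    nrm p (w.comp ((ContinuousLinearMap.mul ℂ A a).comp
      ((ContinuousLinearMap.mul ℂ A).flip b))) x = nrm p w (a * (x * b)) := by
  set f := (exists_decomp w).choose
  have hw : w.comp ((ContinuousLinearMap.mul ℂ A a).comp ((ContinuousLinearMap.mul ℂ A).flip b)) =
      ∑ j : Fin 4, Complex.I ^ (j : ℕ) • vecFun (f j).gnsStarAlgHom
        ((f j).gnsStarAlgHom (star a) (cyc (f j))) ((f j).gnsStarAlgHom b (cyc (f j))) := by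
    ext y
    simp only [ContinuousLinearMap.comp_apply, ContinuousLinearMap.mul_apply',
      ContinuousLinearMap.flip_apply, sum_apply, smul_apply, vecFun_apply, smul_eq_mul]
    rw [(exists_decomp w).choose_spec.1]
    refine Finset.sum_congr rfl fun j _ => ?_
    rw [← inner_cyc, map_mul, map_mul, map_star, mul_apply_eq_comp, mul_apply_eq_comp,
      ContinuousLinearMap.star_eq_adjoint, ContinuousLinearMap.adjoint_inner_left]
  rw [hw, map_sum]
  simp only [map_smul, nrm_vecFun, sum_apply, smul_apply, vecFun_apply, smul_eq_mul]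
  rw [nrm_apply]
  simp only [nrmFun, sum_apply, smul_apply, smul_eq_mul, nPart, vecFun_apply]
  refine Finset.sum_congr rfl fun j _ => ?_
  rw [map_mul, map_mul, mul_apply_eq_comp, mul_apply_eq_comp, map_star,
    ContinuousLinearMap.star_eq_adjoint, ContinuousLinearMap.adjoint_inner_left]
  simp only [rep_proj _ hp]
  rfl

/-- The controlled part is small on elements that are small in finitely many seminorms. -/
theorem nrm_small (w : A →L[ℂ] ℂ) {ε : ℝ} (hε : 0 < ε) :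
    ∃ (F : Finset ι) (δ : ℝ), 0 < δ ∧
      ∀ y : A, ‖y‖ ≤ 1 → (∀ i ∈ F, p i y ≤ δ) → ‖nrm p w y‖ ≤ ε := by
  classical
  set f := (exists_decomp w).choose
  have h : ∀ j : Fin 4, ∃ (F : Finset ι) (δ : ℝ), 0 < δ ∧ ∀ y : A, ‖y‖ ≤ 1 →
      (∀ i ∈ F, p i y ≤ δ) → ‖(f j).gnsStarAlgHom y (proj p (f j).gnsStarAlgHom (cyc (f j)))‖ ≤
        ε / (4 * (‖cyc (f j)‖ + 1)) :=
    fun j => proj_mem _ _ _ (by positivity)
  choose F δ hδ hF using h
  refine ⟨Finset.univ.biUnion F, Finset.univ.inf' Finset.univ_nonempty δ,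
    (Finset.lt_inf'_iff _).2 fun j _ => hδ j, fun y hy hy' => ?_⟩
  rw [nrm_apply]
  simp only [nrmFun, sum_apply, smul_apply, smul_eq_mul, nPart, vecFun_apply]
  refine (norm_sum_le _ _).trans ((Finset.sum_le_sum fun j _ => ?_).trans_eq
    (by rw [Finset.sum_const, Finset.card_univ, Fintype.card_fin, nsmul_eq_mul]; push_cast; ring :
      ∑ _j : Fin 4, ε / 4 = ε))
  rw [norm_mul, norm_pow, Complex.norm_I, one_pow, one_mul]
  refine (norm_inner_le_norm _ _).trans ?_
  have := hF j y hy fun i hi => (hy' i (Finset.mem_biUnion.2 ⟨j, Finset.mem_univ j, hi⟩)).trans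
    (Finset.inf'_le δ (Finset.mem_univ j))
  calc ‖cyc (f j)‖ * ‖(f j).gnsStarAlgHom y (proj p (f j).gnsStarAlgHom (cyc (f j)))‖
      ≤ (‖cyc (f j)‖ + 1) * (ε / (4 * (‖cyc (f j)‖ + 1))) :=
        mul_le_mul (by linarith) this (norm_nonneg _) (by positivity)
    _ = ε / 4 := by field_simp

end Vale.Agent.P082.Normal
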