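import Vale.Agent.P082.Normal.Setting

/-!
# P082: the controlled part of a bounded map of a finite von Neumann algebra
-/

namespace Vale.Agent.P082.Normal

open scoped InnerProductSpace ComplexOrder

universe u

variable {H : Type u} [NormedAddCommGroup H] [InnerProductSpace ℂ H] [CompleteSpace H]
variable {M : VonNeumannAlgebra H} {S : Set H}

attribute [local instance 2000] cstar cstarOrder
attribute [local instance] cstarOrdered

/-- The functional `x ↦ ⟪η, φ x ζ⟫`. -/
noncomputable def mapFun (φ : M.toStarSubalgebra →L[ℂ] M.toStarSubalgebra) (η ζ : H) :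
    M.toStarSubalgebra →L[ℂ] ℂ :=
  (vecFun (idRep M) η ζ).comp φ

theorem mapFun_apply (φ : M.toStarSubalgebra →L[ℂ] M.toStarSubalgebra) (η ζ : H)
    (x : M.toStarSubalgebra) : mapFun φ η ζ x = ⟪η, (φ x : H →L[ℂ] H) ζ⟫_ℂ := rfl

theorem norm_mapFun_le (φ : M.toStarSubalgebra →L[ℂ] M.toStarSubalgebra) (η ζ : H) :
    ‖mapFun φ η ζ‖ ≤ ‖φ‖ * (‖η‖ * ‖ζ‖) := by
  refine ContinuousLinearMap.opNorm_le_bound _ (by positivity) fun x => ?_
  rw [mapFun_apply]
  refine (norm_inner_le_norm _ _).trans ?_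
  calc ‖η‖ * ‖(φ x : H →L[ℂ] H) ζ‖ ≤ ‖η‖ * (‖φ x‖ * ‖ζ‖) :=
        mul_le_mul_of_nonneg_left ((φ x : H →L[ℂ] H).le_opNorm ζ) (norm_nonneg η)
    _ ≤ ‖η‖ * (‖φ‖ * ‖x‖ * ‖ζ‖) := by gcongr; exact φ.le_opNorm x
    _ = ‖φ‖ * (‖η‖ * ‖ζ‖) * ‖x‖ := by ring

variable (S) in
/-- The sesquilinear form of the controlled part at a point. -/
noncomputable def partForm (φ : M.toStarSubalgebra →L[ℂ] M.toStarSubalgebra)
    (x : M.toStarSubalgebra) : H →L⋆[ℂ] H →L[ℂ] ℂ :=
  LinearMap.mkContinuous₂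
    (LinearMap.mk₂'ₛₗ (starRingEnd ℂ) (RingHom.id ℂ)
      (fun η ζ => nrm (semi M S) (mapFun φ η ζ) x)
      (fun η η' ζ => by
        rw [← add_apply, ← map_add]; congr 2; ext y; simp [mapFun_apply])
      (fun c η ζ => by
        rw [← smul_apply, ← map_smul]; congr 2; ext y; simp [mapFun_apply, mul_comm])
      (fun η ζ ζ' => by
        rw [← add_apply, ← map_add]; congr 2; ext y; simp [mapFun_apply])
      (fun c η ζ => by
        simp only [RingHom.id_apply]
        rw [← smul_apply, ← map_smul]; congr 2; ext y; simp [mapFun_apply]))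
    (24 * ‖φ‖ * ‖x‖) fun η ζ => by
      show ‖nrm (semi M S) (mapFun φ η ζ) x‖ ≤ _
      refine (norm_nrm_apply_le _ _).trans ?_
      calc 24 * ‖mapFun φ η ζ‖ * ‖x‖ ≤ 24 * (‖φ‖ * (‖η‖ * ‖ζ‖)) * ‖x‖ := by
            gcongr; exact norm_mapFun_le φ η ζ
        _ = 24 * ‖φ‖ * ‖x‖ * ‖η‖ * ‖ζ‖ := by ring

theorem partForm_apply (φ : M.toStarSubalgebra →L[ℂ] M.toStarSubalgebra)
    (x : M.toStarSubalgebra) (η ζ : H) :
    partForm S φ x η ζ = nrm (semi M S) (mapFun φ η ζ) x := rfl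

variable (S) in
/-- The controlled part at a point, as an operator. -/
noncomputable def partOp (φ : M.toStarSubalgebra →L[ℂ] M.toStarSubalgebra)
    (x : M.toStarSubalgebra) : H →L[ℂ] H :=
  (InnerProductSpace.continuousLinearMapOfBilin (partForm S φ x)).adjoint

theorem inner_partOp (φ : M.toStarSubalgebra →L[ℂ] M.toStarSubalgebra)
    (x : M.toStarSubalgebra) (η ζ : H) :
    ⟪η, partOp S φ x ζ⟫_ℂ = nrm (semi M S) (mapFun φ η ζ) x := by
  rw [partOp, ContinuousLinearMap.adjoint_inner_right,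
    InnerProductSpace.continuousLinearMapOfBilin_apply, partForm_apply]

theorem norm_partOp_le (φ : M.toStarSubalgebra →L[ℂ] M.toStarSubalgebra)
    (x : M.toStarSubalgebra) : ‖partOp S φ x‖ ≤ 24 * ‖φ‖ * ‖x‖ := by
  refine ContinuousLinearMap.opNorm_le_bound _ (by positivity) fun ζ => ?_
  rcases eq_or_ne (partOp S φ x ζ) 0 with h | h
  · rw [h, norm_zero]; positivity
  refine le_of_mul_le_mul_left ?_ (norm_pos_iff.2 h)
  calc ‖partOp S φ x ζ‖ * ‖partOp S φ x ζ‖
      = ‖⟪partOp S φ x ζ, partOp S φ x ζ⟫_ℂ‖ := by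
        rw [inner_self_eq_norm_sq_to_K]; simp [sq]
    _ ≤ 24 * ‖φ‖ * ‖x‖ * ‖partOp S φ x ζ‖ * ‖ζ‖ := by
        rw [inner_partOp]
        refine (norm_nrm_apply_le _ _).trans ?_
        calc 24 * ‖mapFun φ _ ζ‖ * ‖x‖ ≤ 24 * (‖φ‖ * (‖_‖ * ‖ζ‖)) * ‖x‖ := by
              gcongr; exact norm_mapFun_le φ _ ζ
          _ = _ := by ring
    _ = ‖partOp S φ x ζ‖ * (24 * ‖φ‖ * ‖x‖ * ‖ζ‖) := by ring

theorem partOp_mem (φ : M.toStarSubalgebra →L[ℂ] M.toStarSubalgebra)
    (x : M.toStarSubalgebra) : partOp S φ x ∈ M := by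
  show partOp S φ x ∈ (M : Set (H →L[ℂ] H))
  rw [← VonNeumannAlgebra.centralizer_centralizer M]
  intro z hz
  ext ζ
  refine ext_inner_left ℂ fun η => ?_
  rw [mul_apply_eq_comp, mul_apply_eq_comp, ← ContinuousLinearMap.adjoint_inner_left, inner_partOp,
    inner_partOp]
  congr 2
  ext y
  rw [mapFun_apply, mapFun_apply, ContinuousLinearMap.adjoint_inner_left]
  exact congrArg (fun T : H →L[ℂ] H => ⟪η, T ζ⟫_ℂ) (hz (φ y).1 (φ y).2).symm

/-- The controlled part at a point, in the algebra. -/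
noncomputable def partVal (S : Set H) (φ : M.toStarSubalgebra →L[ℂ] M.toStarSubalgebra)
    (x : M.toStarSubalgebra) : M.toStarSubalgebra := ⟨partOp S φ x, partOp_mem φ x⟩

theorem ext_val {a b : M.toStarSubalgebra}
    (h : ∀ η ζ, ⟪η, (a : H →L[ℂ] H) ζ⟫_ℂ = ⟪η, (b : H →L[ℂ] H) ζ⟫_ℂ) : a = b :=
  Subtype.ext (ContinuousLinearMap.ext fun ζ => ext_inner_left ℂ fun η => h η ζ)

theorem inner_partVal (φ : M.toStarSubalgebra →L[ℂ] M.toStarSubalgebra)
    (x : M.toStarSubalgebra) (η ζ : H) :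
    ⟪η, (partVal S φ x : H →L[ℂ] H) ζ⟫_ℂ = nrm (semi M S) (mapFun φ η ζ) x :=
  inner_partOp φ x η ζ

variable (S) in
/-- The controlled part of a map. -/
noncomputable def partMap (φ : M.toStarSubalgebra →L[ℂ] M.toStarSubalgebra) :
    M.toStarSubalgebra →L[ℂ] M.toStarSubalgebra :=
  LinearMap.mkContinuous
    { toFun := partVal S φ
      map_add' := fun x y => ext_val fun η ζ => by
        simp only [AddMemClass.coe_add, add_apply, inner_add_right, inner_partVal, map_add]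
      map_smul' := fun c x => ext_val fun η ζ => by
        simp only [RingHom.id_apply, SetLike.val_smul, smul_apply, inner_smul_right, inner_partVal,
          map_smul, smul_eq_mul] }
    (24 * ‖φ‖) fun x => norm_partOp_le φ x

theorem inner_partMap (φ : M.toStarSubalgebra →L[ℂ] M.toStarSubalgebra)
    (x : M.toStarSubalgebra) (η ζ : H) :
    ⟪η, (partMap S φ x : H →L[ℂ] H) ζ⟫_ℂ = nrm (semi M S) (mapFun φ η ζ) x :=
  inner_partOp φ x η ζ

variable (S) in
/-- The controlled part as a linear map on bounded maps. -/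
noncomputable def normalPart : (M.toStarSubalgebra →L[ℂ] M.toStarSubalgebra) →ₗ[ℂ]
    (M.toStarSubalgebra →L[ℂ] M.toStarSubalgebra) where
  toFun := partMap S
  map_add' := fun φ ψ => ContinuousLinearMap.ext fun x => ext_val fun η ζ => by
    simp only [add_apply, AddMemClass.coe_add, inner_add_right, inner_partMap]
    rw [← add_apply, ← map_add]
    congr 2
    ext y
    simp [mapFun_apply]
  map_smul' := fun c φ => ContinuousLinearMap.ext fun x => ext_val fun η ζ => by
    simp only [RingHom.id_apply, smul_apply, SetLike.val_smul, inner_smul_right, inner_partMap]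
    rw [← smul_eq_mul, ← smul_apply, ← map_smul]
    congr 2
    ext y
    simp [mapFun_apply]

theorem norm_normalPart_le (φ : M.toStarSubalgebra →L[ℂ] M.toStarSubalgebra) :
    ‖normalPart S φ‖ ≤ 24 * ‖φ‖ :=
  LinearMap.mkContinuous_norm_le _ (by positivity) fun x => norm_partOp_le φ x

theorem inner_normalPart (φ : M.toStarSubalgebra →L[ℂ] M.toStarSubalgebra)
    (x : M.toStarSubalgebra) (η ζ : H) :
    ⟪η, (normalPart S φ x : H →L[ℂ] H) ζ⟫_ℂ = nrm (semi M S) (mapFun φ η ζ) x :=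
  inner_partOp φ x η ζ

theorem normalPart_mul_left (φ : M.toStarSubalgebra →L[ℂ] M.toStarSubalgebra)
    (c : M.toStarSubalgebra) :
    normalPart S ((ContinuousLinearMap.mul ℂ _ c).comp φ) =
      (ContinuousLinearMap.mul ℂ _ c).comp (normalPart S φ) := by
  ext1 x
  refine ext_val fun η ζ => ?_
  simp only [ContinuousLinearMap.comp_apply, ContinuousLinearMap.mul_apply',
    MulMemClass.coe_mul, mul_apply_eq_comp]
  rw [inner_normalPart, ← ContinuousLinearMap.adjoint_inner_left, inner_normalPart]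
  congr 2
  ext y
  simp [mapFun_apply, ContinuousLinearMap.adjoint_inner_left]

variable (hS : ∀ ξ ∈ S, ∀ y ∈ M, ‖star y ξ‖ = ‖y ξ‖)
include hS

theorem normalPart_comp_mul (φ : M.toStarSubalgebra →L[ℂ] M.toStarSubalgebra)
    (v : M.toStarSubalgebra) :
    normalPart S (φ.comp (ContinuousLinearMap.mul ℂ _ v)) =
      (normalPart S φ).comp (ContinuousLinearMap.mul ℂ _ v) := by
  ext1 x
  refine ext_val fun η ζ => ?_
  simp only [ContinuousLinearMap.comp_apply, ContinuousLinearMap.mul_apply']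
  rw [inner_normalPart, inner_normalPart]
  have h := nrm_mul (isFamily_semi hS) (mapFun φ η ζ) v 1 x
  rw [mul_one] at h
  rw [← h]
  congr 2

omit hS in
theorem normalPart_mul (hsep : ∀ y ∈ M, (∀ ξ ∈ S, y ξ = 0) → y = 0) (c : M.toStarSubalgebra) :
    normalPart S (ContinuousLinearMap.mul ℂ _ c) = ContinuousLinearMap.mul ℂ _ c := by
  ext1 x
  refine ext_val fun η ζ => ?_
  rw [inner_normalPart]
  have h : mapFun (ContinuousLinearMap.mul ℂ _ c) η ζ =
      vecFun (idRep M) ((c : H →L[ℂ] H).adjoint η) ζ := by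
    ext y
    simp [mapFun_apply, idRep_apply, ContinuousLinearMap.adjoint_inner_left]
  rw [h, nrm_vecFun, proj_eq_self _ (by rw [contSub_idRep hsep]; trivial), vecFun_apply,
    idRep_apply, ContinuousLinearMap.adjoint_inner_left]
  rfl

omit hS in
/-- The controlled part is weakly small on elements that are small at finitely many vectors. -/
theorem normalPart_weak_small (φ : M.toStarSubalgebra →L[ℂ] M.toStarSubalgebra) (η ζ : H)
    {ε : ℝ} (hε : 0 < ε) : ∃ (F : Finset S) (δ : ℝ), 0 < δ ∧ ∀ y : M.toStarSubalgebra,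
      ‖y‖ ≤ 1 → (∀ ξ ∈ F, semi M S ξ y ≤ δ) → ‖⟪η, (normalPart S φ y : H →L[ℂ] H) ζ⟫_ℂ‖ ≤ ε := by
  obtain ⟨F, δ, hδ, h⟩ := nrm_small (p := semi M S) (mapFun φ η ζ) hε
  exact ⟨F, δ, hδ, fun y hy hy' => by rw [inner_normalPart]; exact h y hy hy'⟩

end Vale.Agent.P082.Normal
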