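import Mathlib

/-!
# P082: the part of a representation on which a family of seminorms controls the action
-/

namespace Vale.Agent.P082.Normal

open scoped InnerProductSpace

variable {A : Type*} [CStarAlgebra A] {ι : Type*}

/-- A family of seminorms that is homogeneous and stable under right multiplication. -/
structure IsFamily (p : ι → A → ℝ) : Prop where
  nonneg : ∀ i y, 0 ≤ p i y
  mul_le : ∀ i y a, p i (y * a) ≤ ‖a‖ * p i y
  smul_eq : ∀ i (c : ℂ) y, p i (c • y) = ‖c‖ * p i y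
  add_le : ∀ i y z, p i (y + z) ≤ p i y + p i z
  star_eq : ∀ i y, p i (star y) = p i y

variable {p : ι → A → ℝ}
variable {K : Type*} [NormedAddCommGroup K] [InnerProductSpace ℂ K] [CompleteSpace K]
variable {K' : Type*} [NormedAddCommGroup K'] [InnerProductSpace ℂ K'] [CompleteSpace K']

/-- On the unit ball, `π y η` is small once finitely many seminorms of `y` are small. -/
def IsCont (p : ι → A → ℝ) (π : A →⋆ₐ[ℂ] (K →L[ℂ] K)) (η : K) : Prop :=
  ∀ ε : ℝ, 0 < ε → ∃ (F : Finset ι) (δ : ℝ), 0 < δ ∧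
    ∀ y : A, ‖y‖ ≤ 1 → (∀ i ∈ F, p i y ≤ δ) → ‖π y η‖ ≤ ε

variable (π : A →⋆ₐ[ℂ] (K →L[ℂ] K))

theorem norm_rep_apply_le (y : A) (η : K) : ‖π y η‖ ≤ ‖y‖ * ‖η‖ :=
  ((π y).le_opNorm η).trans
    (mul_le_mul_of_nonneg_right (NonUnitalStarAlgHom.norm_apply_le π y) (norm_nonneg η))

variable (p) in
/-- The closed subspace of the controlled vectors. -/
def contSub : Submodule ℂ K where
  carrier := {η | IsCont p π η}
  zero_mem' := fun ε hε => ⟨∅, 1, one_pos, fun y _ _ => by simpa using hε.le⟩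
  add_mem' := fun {a b} ha hb ε hε => by
    classical
    obtain ⟨F, δ, hδ, hF⟩ := ha (ε / 2) (half_pos hε)
    obtain ⟨G, δ', hδ', hG⟩ := hb (ε / 2) (half_pos hε)
    refine ⟨F ∪ G, min δ δ', lt_min hδ hδ', fun y hy h => ?_⟩
    have h1 := hF y hy fun i hi => (h i (Finset.mem_union_left _ hi)).trans (min_le_left _ _)
    have h2 := hG y hy fun i hi => (h i (Finset.mem_union_right _ hi)).trans (min_le_right _ _)
    rw [map_add]
    exact (norm_add_le _ _).trans (by linarith)
  smul_mem' := fun c a ha ε hε => by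
    obtain ⟨F, δ, hδ, hF⟩ := ha (ε / (‖c‖ + 1)) (by positivity)
    refine ⟨F, δ, hδ, fun y hy h => ?_⟩
    rw [map_smul, norm_smul]
    calc ‖c‖ * ‖π y a‖ ≤ (‖c‖ + 1) * (ε / (‖c‖ + 1)) :=
          mul_le_mul (by linarith) (hF y hy h) (norm_nonneg _) (by positivity)
      _ = ε := mul_div_cancel₀ ε (by positivity)

theorem mem_contSub {η : K} : η ∈ contSub p π ↔ IsCont p π η := Iff.rfl

theorem isClosed_contSub : IsClosed (contSub p π : Set K) := by
  refine isClosed_of_closure_subset fun η hη ε hε => ?_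
  obtain ⟨η', hη', hd⟩ := Metric.mem_closure_iff.1 hη (ε / 2) (half_pos hε)
  obtain ⟨F, δ, hδ, hF⟩ := hη' (ε / 2) (half_pos hε)
  refine ⟨F, δ, hδ, fun y hy h => ?_⟩
  have h1 := hF y hy h
  have h2 : ‖π y (η - η')‖ ≤ ε / 2 := by
    refine (norm_rep_apply_le π y _).trans ?_
    rw [dist_eq_norm] at hd
    exact (mul_le_of_le_one_left (norm_nonneg _) hy).trans hd.le
  calc ‖π y η‖ = ‖π y (η - η') + π y η'‖ := by rw [← map_add, sub_add_cancel]
    _ ≤ ε := (norm_add_le _ _).trans (by linarith)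

instance : CompleteSpace (contSub p π) := (isClosed_contSub π).completeSpace_coe

/-- An intertwiner maps controlled vectors to controlled vectors. -/
theorem map_contSub {π' : A →⋆ₐ[ℂ] (K' →L[ℂ] K')} {T : K →L[ℂ] K'}
    (hT : ∀ a η, T (π a η) = π' a (T η)) {η : K} (hη : η ∈ contSub p π) :
    T η ∈ contSub p π' := by
  intro ε hε
  obtain ⟨F, δ, hδ, hF⟩ := hη (ε / (‖T‖ + 1)) (by positivity)
  refine ⟨F, δ, hδ, fun y hy h => ?_⟩
  rw [← hT]
  calc ‖T (π y η)‖ ≤ (‖T‖ + 1) * (ε / (‖T‖ + 1)) :=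
        (T.le_opNorm _).trans (mul_le_mul (by linarith) (hF y hy h) (norm_nonneg _) (by positivity))
    _ = ε := mul_div_cancel₀ ε (by positivity)

/-- The controlled vectors are invariant under the algebra. -/
theorem rep_mem_contSub (hp : IsFamily p) (a : A) {η : K} (hη : η ∈ contSub p π) :
    π a η ∈ contSub p π := by
  intro ε hε
  set r : ℝ := ‖a‖ + 1 with hr
  have hr0 : 0 < r := by positivity
  obtain ⟨F, δ, hδ, hF⟩ := hη (ε / r) (by positivity)
  refine ⟨F, δ, hδ, fun y hy h => ?_⟩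
  have hn : ‖((r⁻¹ : ℝ) : ℂ)‖ = r⁻¹ := by
    rw [Complex.norm_real, Real.norm_eq_abs, abs_of_pos (inv_pos.2 hr0)]
  have hra : r⁻¹ * ‖a‖ ≤ 1 := by
    rw [inv_mul_le_iff₀ hr0, mul_one]; linarith
  have h1 := hF (((r⁻¹ : ℝ) : ℂ) • (y * a)) ?_ ?_
  · rw [map_smul, map_mul, smul_apply, norm_smul, hn,
      inv_mul_le_iff₀ hr0] at h1
    calc ‖π y (π a η)‖ ≤ r * (ε / r) := h1
      _ = ε := mul_div_cancel₀ ε hr0.ne'
  · rw [norm_smul, hn]
    calc r⁻¹ * ‖y * a‖ ≤ r⁻¹ * (‖y‖ * ‖a‖) := by gcongr; exact norm_mul_le y a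
      _ ≤ r⁻¹ * ‖a‖ := by gcongr; exact mul_le_of_le_one_left (norm_nonneg a) hy
      _ ≤ 1 := hra
  · intro i hi
    rw [hp.smul_eq, hn]
    calc r⁻¹ * p i (y * a) ≤ r⁻¹ * (‖a‖ * p i y) := by gcongr; exact hp.mul_le i y a
      _ = r⁻¹ * ‖a‖ * p i y := by ring
      _ ≤ 1 * δ := mul_le_mul hra (h i hi) (hp.nonneg i y) zero_le_one
      _ = δ := one_mul δ

variable (p) in
/-- The projection on the controlled vectors. -/
noncomputable def proj : K →L[ℂ] K := (contSub p π).starProjection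

theorem norm_proj_apply_le (η : K) : ‖proj p π η‖ ≤ ‖η‖ :=
  ((contSub p π).starProjection.le_opNorm η).trans
    (mul_le_of_le_one_left (norm_nonneg η) (Submodule.starProjection_norm_le _))

theorem proj_mem (η : K) : proj p π η ∈ contSub p π := Submodule.starProjection_apply_mem _ _

theorem proj_eq_self {η : K} (hη : η ∈ contSub p π) : proj p π η = η :=
  Submodule.starProjection_eq_self_iff.2 hη

/-- Intertwiners of both directions commute with the projections. -/
theorem intertwine_proj {π' : A →⋆ₐ[ℂ] (K' →L[ℂ] K')} {T : K →L[ℂ] K'}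
    (hT : ∀ a η, T (π a η) = π' a (T η)) (η : K) : T (proj p π η) = proj p π' (T η) := by
  have hTa : ∀ a ζ, T.adjoint (π' a ζ) = π a (T.adjoint ζ) := fun a ζ => by
    refine ext_inner_right ℂ fun η => ?_
    rw [ContinuousLinearMap.adjoint_inner_left, ← ContinuousLinearMap.adjoint_inner_right (π' a),
      ← ContinuousLinearMap.adjoint_inner_right (π a), ← ContinuousLinearMap.star_eq_adjoint,
      ← ContinuousLinearMap.star_eq_adjoint, ← map_star, ← map_star, ← hT,
      ContinuousLinearMap.adjoint_inner_left]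
  symm
  refine Submodule.eq_starProjection_of_mem_of_inner_eq_zero
    (map_contSub π hT (proj_mem π η)) fun w hw => ?_
  rw [← map_sub, ← ContinuousLinearMap.adjoint_inner_right]
  exact Submodule.starProjection_inner_eq_zero _ _ (map_contSub π' hTa hw)

/-- The algebra commutes with the projection. -/
theorem rep_proj (hp : IsFamily p) (a : A) (η : K) : π a (proj p π η) = proj p π (π a η) := by
  symm
  refine Submodule.eq_starProjection_of_mem_of_inner_eq_zero
    (rep_mem_contSub π hp a (proj_mem π η)) fun w hw => ?_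
  rw [← map_sub, ← ContinuousLinearMap.adjoint_inner_right, ← ContinuousLinearMap.star_eq_adjoint,
    ← map_star]
  exact Submodule.starProjection_inner_eq_zero _ _ (rep_mem_contSub π hp (star a) hw)

end Vale.Agent.P082.Normal
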