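import Vale.Agent.P082.Defs
import Vale.Agent.P082.Normal.NrmMap

/-!
# P082: the seminorms of tracial vectors on a von Neumann algebra
-/

namespace Vale.Agent.P082.Normal

open scoped InnerProductSpace

universe u

variable {H : Type u} [NormedAddCommGroup H] [InnerProductSpace ℂ H] [CompleteSpace H]
variable (M : VonNeumannAlgebra H)

/-- A von Neumann algebra is norm closed. -/
theorem isClosed_coe : IsClosed (M.toStarSubalgebra : Set (H →L[ℂ] H)) := by
  rw [show (M.toStarSubalgebra : Set (H →L[ℂ] H)) =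
    Set.centralizer (Set.centralizer (M : Set (H →L[ℂ] H))) from
    (VonNeumannAlgebra.centralizer_centralizer' M).symm]
  exact Set.isClosed_centralizer _

/-- The algebra as a C*-algebra. -/
@[reducible]
noncomputable def cstar : CStarAlgebra M.toStarSubalgebra :=
  StarSubalgebra.cstarAlgebra M.toStarSubalgebra (h_closed := isClosed_coe M)

/-- The spectral order. -/
@[reducible]
noncomputable def cstarOrder : PartialOrder M.toStarSubalgebra :=
  letI := cstar M
  CStarAlgebra.spectralOrder _

/-- The spectral order is a star order. -/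
theorem cstarOrdered :
    letI := cstar M
    letI := cstarOrder M
    StarOrderedRing M.toStarSubalgebra :=
  letI := cstar M
  CStarAlgebra.spectralOrderedRing _

attribute [local instance] cstar

/-- The identity representation. -/
noncomputable def idRep : M.toStarSubalgebra →⋆ₐ[ℂ] (H →L[ℂ] H) := M.toStarSubalgebra.subtype

theorem idRep_apply (x : M.toStarSubalgebra) : idRep M x = (x : H →L[ℂ] H) := rfl

variable {M} {S : Set H}

/-- The seminorms of the vectors in `S`. -/
noncomputable def semi (M : VonNeumannAlgebra H) (S : Set H) :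
    S → M.toStarSubalgebra → ℝ :=
  fun ξ y => ‖(y : H →L[ℂ] H) ξ‖

variable (hS : ∀ ξ ∈ S, ∀ y ∈ M, ‖star y ξ‖ = ‖y ξ‖)
include hS

theorem isFamily_semi : IsFamily (semi M S) where
  nonneg := fun _ _ => norm_nonneg _
  mul_le := fun ξ y a => by
    show ‖((y * a : M.toStarSubalgebra) : H →L[ℂ] H) ξ‖ ≤ ‖a‖ * ‖(y : H →L[ℂ] H) ξ‖
    rw [← hS _ ξ.2 _ (y * a).2, ← hS _ ξ.2 _ y.2]
    simp only [MulMemClass.coe_mul, star_mul, mul_apply_eq_comp]
    exact ((star (a : H →L[ℂ] H)).le_opNorm _).trans (le_of_eq (by rw [norm_star]; rfl))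
  smul_eq := fun ξ c y => by simp [semi, norm_smul]
  add_le := fun ξ y z => norm_add_le ((y : H →L[ℂ] H) ξ) ((z : H →L[ℂ] H) ξ)
  star_eq := fun ξ y => hS _ ξ.2 _ y.2

omit hS in
/-- With a separating set every vector is controlled. -/
theorem contSub_idRep (hsep : ∀ y ∈ M, (∀ ξ ∈ S, y ξ = 0) → y = 0) :
    contSub (semi M S) (idRep M) = ⊤ := by
  set C := contSub (semi M S) (idRep M)
  have hmem : ∀ ξ ∈ S, ξ ∈ C := fun ξ hξ ε hε =>
    ⟨{⟨ξ, hξ⟩}, ε, hε, fun y _ h => h ⟨ξ, hξ⟩ (Finset.mem_singleton_self _)⟩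
  have hinv : ∀ z ∈ Set.centralizer (M : Set (H →L[ℂ] H)), ∀ η ∈ C, z η ∈ C := fun z hz η hη =>
    map_contSub (idRep M) (π' := idRep M) (T := z)
      (fun a ζ => (congrArg (fun T : H →L[ℂ] H => T ζ) (hz a.1 a.2)).symm) hη
  have hstar : ∀ z ∈ Set.centralizer (M : Set (H →L[ℂ] H)),
      star z ∈ Set.centralizer (M : Set (H →L[ℂ] H)) := fun z hz a ha => by
    have := congrArg star (hz (star a) (star_mem ha))
    simpa only [star_mul, star_star] using this.symm
  have hP : C.starProjection ∈ M := by
    show C.starProjection ∈ (M : Set (H →L[ℂ] H))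
    rw [← VonNeumannAlgebra.centralizer_centralizer M]
    intro z hz
    ext η
    rw [mul_apply_eq_comp, mul_apply_eq_comp]
    symm
    refine Submodule.eq_starProjection_of_mem_of_inner_eq_zero
      (hinv z hz _ (Submodule.starProjection_apply_mem _ _)) fun w hw => ?_
    rw [← map_sub, ← ContinuousLinearMap.adjoint_inner_right, ← ContinuousLinearMap.star_eq_adjoint]
    exact Submodule.starProjection_inner_eq_zero _ _ (hinv _ (hstar z hz) w hw)
  have h1 : (1 : H →L[ℂ] H) - C.starProjection = 0 := by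
    refine hsep _ (sub_mem (one_mem M) hP) fun ξ hξ => ?_
    rw [sub_apply, one_apply_eq_self, Submodule.starProjection_eq_self_iff.2 (hmem ξ hξ), sub_self]
  refine eq_top_iff.2 fun η _ => ?_
  have h2 := congrArg (fun T : H →L[ℂ] H => T η) h1
  simp only [sub_apply, one_apply_eq_self, zero_apply, sub_eq_zero] at h2
  rw [h2]
  exact Submodule.starProjection_apply_mem _ _

end Vale.Agent.P082.Normal
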