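import Vale.Agent.P082.Normal.Part
import Vale.Agent.P082.Normal.Cut

/-!
# P082: weak smallness upgrades to norm smallness (a finite gliding hump)
-/

namespace Vale.Agent.P082.Normal

open scoped InnerProductSpace ComplexOrder

universe u

variable {H : Type u} [NormedAddCommGroup H] [InnerProductSpace ℂ H] [CompleteSpace H]
variable {M : VonNeumannAlgebra H} {S : Set H}

attribute [local instance 2000] cstar cstarOrder
attribute [local instance] cstarOrdered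

/-- The two cut pieces fit in the unit ball. -/
theorem norm_row_le {y : M.toStarSubalgebra} {s : ℝ} (hs : 0 < s) (a z : M.toStarSubalgebra)
    (ha : ‖a‖ ≤ 1) (hz : ‖z‖ ≤ 1) :
    ‖(1 - cut y s) * a * (1 - cut y s) + cut y s * z * cut y s‖ ≤ 1 := by
  obtain ⟨hrsa, -, -, hqsa, -, -, hid⟩ := res_facts (y := y) hs
  set q := cut y s with hq
  set Q : H →L[ℂ] H := (q : H →L[ℂ] H) with hQ
  have hQsa : star Q = Q := congrArg Subtype.val hqsa.star_eq
  have hadj : ∀ u v, ⟪Q u, v⟫_ℂ = ⟪u, Q v⟫_ℂ := fun u v => by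
    conv_lhs => rw [← hQsa]
    rw [ContinuousLinearMap.star_eq_adjoint, ContinuousLinearMap.adjoint_inner_left]
  have hre2 : ∀ x : ℝ, ((x : ℂ) ^ 2).re = x ^ 2 := fun x => by simp [sq]
  have hpos : ∀ w, ‖w - Q w‖ ^ 2 + ‖Q w‖ ^ 2 ≤ ‖w‖ ^ 2 := fun w => by
    have h0 : 0 ≤ (⟪w, Q (w - Q w)⟫_ℂ).re := by
      have e : Q (w - Q w) = ((q * (1 - q) : M.toStarSubalgebra) : H →L[ℂ] H) w := by
        simp [hQ, map_sub]
      rw [e, hid]
      set R : H →L[ℂ] H := ((res y s : M.toStarSubalgebra) : H →L[ℂ] H)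
      have hRsa : star R = R := congrArg Subtype.val hrsa.star_eq
      have hR : ∀ u v, ⟪u, R v⟫_ℂ = ⟪R u, v⟫_ℂ := fun u v => by
        rw [← ContinuousLinearMap.adjoint_inner_left, ← ContinuousLinearMap.star_eq_adjoint, hRsa]
      show 0 ≤ (⟪w, s • R (star (y : H →L[ℂ] H) ((y : H →L[ℂ] H) (R w)) +
        (y : H →L[ℂ] H) (star (y : H →L[ℂ] H) (R w)))⟫_ℂ).re
      rw [inner_smul_right_eq_smul, hR, inner_add_right, ContinuousLinearMap.star_eq_adjoint,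
        ContinuousLinearMap.adjoint_inner_right, ← ContinuousLinearMap.adjoint_inner_left (y : H →L[ℂ] H)
          ((ContinuousLinearMap.adjoint (y : H →L[ℂ] H)) (R w)) (R w),
        inner_self_eq_norm_sq_to_K, inner_self_eq_norm_sq_to_K]
      simp only [Complex.real_smul, Complex.mul_re, Complex.ofReal_re, Complex.ofReal_im, zero_mul,
        sub_zero, Complex.add_re]
      refine mul_nonneg hs.le (add_nonneg ?_ ?_) <;>
        · simp only [Complex.coe_algebraMap, hre2]; positivity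
    have hre : (⟪w, Q (w - Q w)⟫_ℂ).re = (⟪w, Q w⟫_ℂ).re - ‖Q w‖ ^ 2 := by
      rw [map_sub, inner_sub_right, ← hadj w (Q w), inner_self_eq_norm_sq_to_K, Complex.sub_re]
      simp only [Complex.coe_algebraMap, hre2]
    rw [norm_sub_sq (𝕜 := ℂ)]
    simp only [RCLike.re_to_complex]
    linarith
  show ‖(((1 - q) * a * (1 - q) + q * z * q : M.toStarSubalgebra) : H →L[ℂ] H)‖ ≤ 1
  refine ContinuousLinearMap.opNorm_le_bound _ zero_le_one fun v => ?_
  rw [one_mul]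
  set T := (((1 - q) * a * (1 - q) + q * z * q : M.toStarSubalgebra) : H →L[ℂ] H) v with hT
  have hTe : T = ((a : H →L[ℂ] H) (v - Q v) - Q ((a : H →L[ℂ] H) (v - Q v))) +
      Q ((z : H →L[ℂ] H) (Q v)) := by
    simp [hT, hQ]
  have key : ‖T‖ ^ 2 ≤ ‖T - Q T‖ * ‖v - Q v‖ + ‖Q T‖ * ‖Q v‖ := by
    have h1 : ⟪T, T⟫_ℂ = ⟪T - Q T, (a : H →L[ℂ] H) (v - Q v)⟫_ℂ +
        ⟪Q T, (z : H →L[ℂ] H) (Q v)⟫_ℂ := by
      conv_lhs => arg 3; rw [hTe]
      rw [inner_add_right, inner_sub_right, inner_sub_left, hadj, hadj]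
    have h2 := congrArg norm h1
    rw [inner_self_eq_norm_sq_to_K, norm_pow, RCLike.norm_ofReal, abs_of_nonneg (norm_nonneg _)] at h2
    rw [h2]
    refine (norm_add_le _ _).trans (add_le_add ?_ ?_)
    · refine (norm_inner_le_norm _ _).trans (mul_le_mul_of_nonneg_left ?_ (norm_nonneg _))
      exact ((a : H →L[ℂ] H).le_opNorm _).trans (mul_le_of_le_one_left (norm_nonneg _) ha)
    · refine (norm_inner_le_norm _ _).trans (mul_le_mul_of_nonneg_left ?_ (norm_nonneg _))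
      exact ((z : H →L[ℂ] H).le_opNorm _).trans (mul_le_of_le_one_left (norm_nonneg _) hz)
  have h3 := hpos T
  have h4 := hpos v
  nlinarith [sq_nonneg (‖T - Q T‖ - ‖v - Q v‖), sq_nonneg (‖Q T‖ - ‖Q v‖), norm_nonneg T,
    norm_nonneg v]

variable (hS : ∀ ξ ∈ S, ∀ y ∈ M, ‖star y ξ‖ = ‖y ξ‖)
include hS

/-- A bounded map that is weakly small near `0` is small in norm near `0`, vector by vector. -/
theorem small_of_weak (ψ : M.toStarSubalgebra →L[ℂ] M.toStarSubalgebra) (η : H)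
    (hw : ∀ (e : H) (ε : ℝ), 0 < ε → ∃ (F : Finset S) (δ : ℝ), 0 < δ ∧
      ∀ y : M.toStarSubalgebra, ‖y‖ ≤ 1 → (∀ ξ ∈ F, semi M S ξ y ≤ δ) →
        ‖⟪e, (ψ y : H →L[ℂ] H) η⟫_ℂ‖ ≤ ε)
    {ε : ℝ} (hε : 0 < ε) : ∃ (F : Finset S) (δ : ℝ), 0 < δ ∧ ∀ y : M.toStarSubalgebra,
      ‖y‖ ≤ 1 → (∀ ξ ∈ F, semi M S ξ y ≤ δ) → ‖(ψ y : H →L[ℂ] H) η‖ ≤ ε := by
  by_contra hbad
  push Not at hbad
  have hp := isFamily_semi hS
  set W : M.toStarSubalgebra → H := fun x => (ψ x : H →L[ℂ] H) η with hW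
  have hWb : ∀ x, ‖W x‖ ≤ ‖ψ‖ * ‖η‖ * ‖x‖ := fun x => by
    refine ((ψ x : H →L[ℂ] H).le_opNorm η).trans ?_
    calc ‖ψ x‖ * ‖η‖ ≤ ‖ψ‖ * ‖x‖ * ‖η‖ := by gcongr; exact ψ.le_opNorm x
      _ = ‖ψ‖ * ‖η‖ * ‖x‖ := by ring
  have hWadd : ∀ x x', W (x + x') = W x + W x' := fun x x' => by simp [hW]
  have hWsub : ∀ x x', W (x - x') = W x - W x' := fun x x' => by simp [hW]
  have step : ∀ a : M.toStarSubalgebra, ‖a‖ ≤ 1 →
      ∃ a' : M.toStarSubalgebra, ‖a'‖ ≤ 1 ∧ ‖W a‖ ^ 2 + ε ^ 2 / 2 ≤ ‖W a'‖ ^ 2 := by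
    intro a ha
    set τ := ε ^ 2 / 96
    obtain ⟨F, δ, hδ, hF⟩ := hw (W a) τ (by positivity)
    set σ := ε / (8 * (‖ψ‖ * ‖η‖ + 1)) with hσ
    have hσ0 : 0 < σ := by positivity
    set s := σ ^ 2
    have hs : 0 < s := by positivity
    obtain ⟨y, hy, hyF, hyb⟩ := hbad F (δ * s / 2) (by positivity)
    obtain ⟨-, -, -, hqsa, hq1, -, -⟩ := res_facts (y := y) hs
    set q := cut y s with hq
    have hqF : ∀ ξ ∈ F, semi M S ξ q ≤ δ := fun ξ hξ => by
      refine (semi_cut_le hp hs hy ξ).trans ?_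
      calc 2 / s * semi M S ξ y ≤ 2 / s * (δ * s / 2) := by gcongr; exact hyF ξ hξ
        _ = δ := by field_simp
    have hqa : ∀ ξ ∈ F, semi M S ξ (q * a) ≤ δ := fun ξ hξ =>
      ((hp.mul_le ξ q a).trans (mul_le_of_le_one_left (hp.nonneg _ _) ha)).trans (hqF ξ hξ)
    have haq : ∀ ξ ∈ F, semi M S ξ (a * q) ≤ δ := fun ξ hξ => by
      rw [← hp.star_eq, star_mul, hqsa.star_eq]
      exact ((hp.mul_le ξ q _).trans (mul_le_of_le_one_left (hp.nonneg _ _)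
        (by rw [norm_star]; exact ha))).trans (hqF ξ hξ)
    have hqaq : ∀ ξ ∈ F, semi M S ξ (q * a * q) ≤ δ := fun ξ hξ =>
      ((hp.mul_le ξ _ q).trans (mul_le_of_le_one_left (hp.nonneg _ _) hq1)).trans (hqa ξ hξ)
    have hn1 : ‖q * a‖ ≤ 1 := (norm_mul_le _ _).trans (mul_le_one₀ hq1 (norm_nonneg _) ha)
    have hn2 : ‖a * q‖ ≤ 1 := (norm_mul_le _ _).trans (mul_le_one₀ ha (norm_nonneg _) hq1)
    have hn3 : ‖q * a * q‖ ≤ 1 := (norm_mul_le _ _).trans (mul_le_one₀ hn1 (norm_nonneg _) hq1)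
    have e1 := (Complex.abs_re_le_norm _).trans (hF _ hn1 hqa)
    have e2 := (Complex.abs_re_le_norm _).trans (hF _ hn2 haq)
    have e3 := (Complex.abs_re_le_norm _).trans (hF _ hn3 hqaq)
    set u := W ((1 - q) * a * (1 - q)) with hu
    set v := W (q * y * q) with hv
    have hu_eq : u = W a - W (q * a) - W (a * q) + W (q * a * q) := by
      rw [hu, ← hWsub, ← hWsub, ← hWadd]
      congr 1
      noncomm_ring
    have hu2 : ‖W a‖ ^ 2 - 6 * τ ≤ ‖u‖ ^ 2 := by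
      have h1 : (⟪W a, u⟫_ℂ).re ≥ ‖W a‖ ^ 2 - 3 * τ := by
        rw [hu_eq, inner_add_right, inner_sub_right, inner_sub_right, Complex.add_re,
          Complex.sub_re, Complex.sub_re, inner_self_eq_norm_sq_to_K, ← RCLike.ofReal_pow]
        simp only [Complex.coe_algebraMap]
        rw [show (((‖W a‖ ^ 2 : ℝ) : ℂ)).re = ‖W a‖ ^ 2 from Complex.ofReal_re _]
        linarith [abs_le.1 e1, abs_le.1 e2, abs_le.1 e3]
      have h2 := norm_sub_sq (𝕜 := ℂ) (W a) u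
      simp only [RCLike.re_to_complex] at h2
      nlinarith [sq_nonneg ‖W a - u‖]
    have hv2 : 9 / 16 * ε ^ 2 ≤ ‖v‖ ^ 2 := by
      have h1 : ‖W (q * y * q - y)‖ ≤ ε / 4 := by
        refine (hWb _).trans ?_
        calc ‖ψ‖ * ‖η‖ * ‖q * y * q - y‖ ≤ (‖ψ‖ * ‖η‖ + 1) * (2 * σ) := by
              refine mul_le_mul (by linarith) ?_ (norm_nonneg _) (by positivity)
              have := norm_cut_sub_le (y := y) hs
              rwa [Real.sqrt_sq hσ0.le] at this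
          _ = ε / 4 := by rw [hσ]; field_simp; ring
      rw [hWsub] at h1
      have h2 : ε - ε / 4 ≤ ‖v‖ := by
        have := norm_sub_norm_le (W y) (W (q * y * q))
        rw [norm_sub_rev] at this
        linarith [hyb]
      nlinarith
    have hplus := norm_row_le (y := y) hs a y ha hy
    have hminus := norm_row_le (y := y) hs a (-y) ha (by rw [norm_neg]; exact hy)
    have hpar := parallelogram_law_with_norm ℂ u v
    by_cases hcase : ‖W a‖ ^ 2 + ε ^ 2 / 2 ≤ ‖u + v‖ ^ 2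
    · exact ⟨_, hplus, by rw [hWadd]; exact hcase⟩
    · refine ⟨_, hminus, ?_⟩
      rw [hWadd, mul_neg, neg_mul, show W (-(q * y * q)) = -v by simp [hv, hW], ← sub_eq_add_neg]
      have hτ : τ = ε ^ 2 / 96 := rfl
      nlinarith [not_le.1 hcase]
  have iter : ∀ n : ℕ, ∃ a : M.toStarSubalgebra, ‖a‖ ≤ 1 ∧ (n : ℝ) * (ε ^ 2 / 2) ≤ ‖W a‖ ^ 2 := by
    intro n
    induction n with
    | zero => exact ⟨0, by simp, by simp⟩
    | succ n ih =>
      obtain ⟨a, ha, han⟩ := ih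
      obtain ⟨a', ha', h⟩ := step a ha
      exact ⟨a', ha', by push_cast; linarith⟩
  obtain ⟨n, hn⟩ := exists_nat_gt ((‖ψ‖ * ‖η‖) ^ 2 / (ε ^ 2 / 2))
  obtain ⟨a, ha, han⟩ := iter n
  rw [div_lt_iff₀ (by positivity)] at hn
  have : ‖W a‖ ≤ ‖ψ‖ * ‖η‖ := (hWb a).trans (mul_le_of_le_one_right (by positivity) ha)
  nlinarith [norm_nonneg (W a)]

/-- The normal part is continuous at `0` on the ball for the seminorms of the tracial vectors. -/
theorem normalPart_small (φ : M.toStarSubalgebra →L[ℂ] M.toStarSubalgebra) (η : H)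
    {ε : ℝ} (hε : 0 < ε) : ∃ (F : Finset H) (δ : ℝ), ↑F ⊆ S ∧ 0 < δ ∧
      ∀ y : M.toStarSubalgebra, ‖y‖ ≤ 1 → (∀ ξ ∈ F, ‖(y : H →L[ℂ] H) ξ‖ ≤ δ) →
        ‖(normalPart S φ y : H →L[ℂ] H) η‖ ≤ ε := by
  obtain ⟨F, δ, hδ, h⟩ := small_of_weak hS (normalPart S φ) η
    (fun e _ hε => normalPart_weak_small φ e η hε) hε
  refine ⟨F.map (Function.Embedding.subtype _), δ, ?_, hδ, fun y hy hF => h y hy fun ξ hξ => ?_⟩
  · intro x hx
    simp only [Finset.coe_map, Set.mem_image] at hx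
    obtain ⟨ξ, -, rfl⟩ := hx
    exact ξ.2
  · exact hF ξ.1 (Finset.mem_map_of_mem _ hξ)

end Vale.Agent.P082.Normal
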